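import Vale.Agent.P159.TM.H131.Mix

/-!
Bridge: `Ib b k = ofReal (wI b k)`, and the closed edges in the letters `wI`.
-/

open MeasureTheory Filter Topology Finset
open scoped ENNReal Nat

namespace Vale.Agent.P159.TM.H131

open Vale.Agent.P159.H353 Vale.Agent.P159.T1.H897

lemma NN_choose (n : ℕ) (k : ℤ) :
    NN n k = ∑ ij ∈ antidiagonal n, n.choose ij.1 * (if (ij.1 : ℤ) - ij.2 = k then 1 else 0) := by
  induction n generalizing k with
  | zero =>
    rw [Finset.Nat.antidiagonal_zero, Finset.sum_singleton, NN_zero]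
    simp only [Nat.choose_self, one_mul, Nat.cast_zero, sub_zero]
    by_cases h : k = 0
    · subst h; simp
    · rw [if_neg h, if_neg (Ne.symm h)]
  | succ n ih =>
    have h := Finset.sum_antidiagonal_choose_succ_mul (R := ℕ)
      (fun i j => if (i : ℤ) - j = k then 1 else 0) n
    simp only [Nat.cast_id] at h
    rw [h, NN_succ, ih, ih, add_comm]
    congr 1
    · refine Finset.sum_congr rfl fun ij _ => ?_
      congr 1
      push_cast
      by_cases h : (ij.1 : ℤ) - (ij.2 + 1) = k
      · rw [if_pos h, if_pos (by omega)]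
      · rw [if_neg h, if_neg (by omega)]
    · refine Finset.sum_congr rfl fun ij hij => ?_
      rw [mem_antidiagonal] at hij
      rw [← Nat.choose_symm_of_eq_add (n := n) (a := ij.1) (b := ij.2) hij.symm]
      congr 1
      push_cast
      by_cases h : (ij.1 : ℤ) + 1 - ij.2 = k
      · rw [if_pos h, if_pos (by omega)]
      · rw [if_neg h, if_neg (by omega)]

lemma Ib_eq_sum {b : ℝ} (hb : 0 ≤ b) (k : ℤ) :
    Ib b k = ∑' i : ℕ, ∑' j : ℕ, wN b i * wN b j * (if (i : ℤ) - j = k then 1 else 0) := by
  rw [← tsum_anti fun i j => wN b i * wN b j * (if (i : ℤ) - j = k then 1 else 0)]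
  unfold Ib
  refine tsum_congr fun n => ?_
  rw [NN_choose, Nat.cast_sum, Finset.mul_sum]
  refine Finset.sum_congr rfl fun ij hij => ?_
  rw [mem_antidiagonal] at hij
  rw [wN_mul hb, hij]
  push_cast
  rw [mul_assoc]

/-- the Bessel weights of the starting files -/
theorem Ib_eq {b : ℝ} (hb : 0 ≤ b) (k : ℤ) : Ib b k = ENNReal.ofReal (wI b k) := by
  have hx : 0 ≤ b / 2 := by linarith
  rw [wI_eq_pcv hb, pcv, ENNReal.ofReal_tsum_of_nonneg
    (fun m => mul_nonneg (poi_nonneg hx _) (poi_nonneg hx _)) (summable_poi_sub hx k), Ib_eq_sum hb,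
    ENNReal.tsum_comm]
  have hinj : Function.Injective fun j : ℕ => -(j : ℤ) := by
    intro a c h
    simpa using h
  have hsup : Function.support (fun m : ℤ => ENNReal.ofReal (poi (b / 2) (k - m) *
      poi (b / 2) (-m))) ⊆ Set.range fun j : ℕ => -(j : ℤ) := by
    intro m hm
    refine ⟨(-m).toNat, ?_⟩
    simp only
    by_contra h
    apply hm
    have : poi (b / 2) (-m) = 0 := poi_neg_of _ (by omega)
    simp [this]
  rw [← hinj.tsum_eq hsup]
  refine tsum_congr fun j => ?_
  simp only [neg_neg, sub_neg_eq_add, poi_nat]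
  by_cases h : 0 ≤ k + j
  · rw [tsum_eq_single (k + j).toNat]
    · rw [if_pos (by omega), mul_one, wN, wN, ← ENNReal.ofReal_mul (by positivity)]
      congr 2
      rw [← poi_nat (b / 2) (k + j).toNat, show (((k + j).toNat : ℕ) : ℤ) = k + j by omega]
    · intro i hi
      rw [if_neg (by omega), mul_zero]
  · rw [poi_neg_of _ (by omega), zero_mul, ENNReal.ofReal_zero, ENNReal.tsum_eq_zero]
    intro i
    rw [if_neg (by omega), mul_zero]

/-- the larger of the two Bessel products -/
theorem swap_le {b : ℝ} (hb : 0 ≤ b) (x x' y y' : ℤ) (h : 0 ≤ (x - x') * (y - y')) :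
    Ib b (x - y') * Ib b (x' - y) ≤ Ib b (x - y) * Ib b (x' - y') := by
  rw [Ib_eq hb, Ib_eq hb, Ib_eq hb, Ib_eq hb, ← ENNReal.ofReal_mul (wI_nonneg hb _),
    ← ENNReal.ofReal_mul (wI_nonneg hb _)]
  refine ENNReal.ofReal_le_ofReal ?_
  have hc := logC_wI hb
  rcases le_total 0 (x - x') with h1 | h1
  · rcases eq_or_lt_of_le h1 with h2 | h2
    · rw [show x' = x by omega, mul_comm]
    · have h3 : 0 ≤ y - y' := by
        by_contra h4
        have := mul_neg_of_pos_of_neg h2 (not_le.1 h4)
        omega
      rw [mul_comm]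
      exact hc (x' - y) (x - y) (x' - y') (x - y') (by ring) (by omega) (by omega) |>.trans_eq rfl
  · rcases eq_or_lt_of_le h1 with h2 | h2
    · rw [show x' = x by omega, mul_comm]
    · have h3 : y - y' ≤ 0 := by
        by_contra h4
        have := mul_neg_of_neg_of_pos h2 (not_le.1 h4)
        omega
      refine (hc (x - y') (x - y) (x' - y') (x' - y) (by ring) (by omega) (by omega))

/-- the closed weight is the smaller of the two products -/
theorem Cl_eq_min {b : ℝ} (hb : 0 ≤ b) (x x' y y' : ℤ) :
    Cl b (x + x' - (y + y')) (x - x') (y - y') =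
      min (Ib b (x - y) * Ib b (x' - y')) (Ib b (x - y') * Ib b (x' - y)) := by
  rw [Cl_eq hb]
  split_ifs with h
  · rw [min_eq_right (swap_le hb x x' y y' h.le)]
  · rw [min_eq_left]
    have := swap_le hb x x' y' y (by nlinarith [not_lt.1 h])
    exact this

/-- **two copies, real letters** -/
theorem closed2_wI {b : ℝ} (hb : 0 ≤ b) (x x' y y' : ℤ) (hd : x ≠ x') :
    ENNReal.ofReal (min (wI b (x - y) * wI b (x' - y')) (wI b (x - y') * wI b (x' - y))) =
      ∫⁻ ω : Pin, pinG b x x' y y' ω.1 ω.2 ∂pinM := by
  rw [← closed2_pin hb x x' y y' hd, Cl_eq_min hb, Ib_eq hb, Ib_eq hb, Ib_eq hb, Ib_eq hb,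
    ← ENNReal.ofReal_mul (wI_nonneg hb _), ← ENNReal.ofReal_mul (wI_nonneg hb _)]
  exact (ENNReal.ofReal_mono).map_min

/-- the one-copy closed weight is the smaller of the two weights -/
theorem closed1_wI {b : ℝ} (hb : 0 ≤ b) (d m : ℤ) (hd : d ≠ 0) :
    ENNReal.ofReal (min (wI b (m - d)) (wI b (m + d))) =
      ∫⁻ t in Set.Icc (0 : ℝ) 1, ker1 b t d * Ib (b * (1 - t)) m := by
  rw [← closed1 hb d m hd, Ib_eq hb]
  congr 1
  rcases le_total 0 (d * m) with h | h
  · rw [min_eq_right]
    · have : |m + d| = |(|d| + |m|)| := by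
        rw [abs_of_nonneg (by positivity : 0 ≤ |d| + |m|)]
        rcases le_total 0 d with h1 | h1
        · rcases le_total 0 m with h2 | h2
          · rw [abs_of_nonneg h1, abs_of_nonneg h2, abs_of_nonneg (by omega)]; ring
          · rcases eq_or_lt_of_le h1 with h3 | h3
            · rw [← h3]; simp
            · have : m = 0 := by nlinarith
              subst this; simp
        · rcases le_total 0 m with h2 | h2
          · rcases eq_or_lt_of_le h1 with h3 | h3
            · rw [h3]; simp
            · have : m = 0 := by nlinarith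
              subst this; simp
          · rw [abs_of_nonpos h1, abs_of_nonpos h2, abs_of_nonpos (by omega)]; ring
      exact le_antisymm (wI_anti hb this.ge) (wI_anti hb this.le)
    · refine wI_anti hb ?_
      rw [← sq_le_sq]
      nlinarith
  · rw [min_eq_left]
    · have : |m - d| = |(|d| + |m|)| := by
        rw [abs_of_nonneg (by positivity : 0 ≤ |d| + |m|)]
        rcases le_total 0 d with h1 | h1
        · rcases le_total 0 m with h2 | h2
          · rcases eq_or_lt_of_le h1 with h3 | h3
            · rw [← h3]; simp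
            · have : m = 0 := by nlinarith
              subst this; simp
          · rw [abs_of_nonneg h1, abs_of_nonpos h2, abs_of_nonpos (by omega)]; ring
        · rcases le_total 0 m with h2 | h2
          · rw [abs_of_nonpos h1, abs_of_nonneg h2, abs_of_nonneg (by omega)]; ring
          · rcases eq_or_lt_of_le h1 with h3 | h3
            · rw [h3]; simp
            · have : m = 0 := by nlinarith
              subst this; simp
      exact le_antisymm (wI_anti hb this.ge) (wI_anti hb this.le)
    · refine wI_anti hb ?_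
      rw [← sq_le_sq]
      nlinarith

end Vale.Agent.P159.TM.H131
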