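import Vale.Agent.P159.T1.H897.LogC

/-!
Paths with steps `±1`, the Bessel weights `Ib b k = ∑ (b/2)^n/n! N_n(k)` in `[0,∞]`, the product
formula, the first passage decomposition, the Beta integral, and the closed edge decompositions.
-/

open MeasureTheory Filter Topology Finset
open scoped ENNReal Nat

namespace Vale.Agent.P159.TM.H131

/-- number of paths of `n` steps `±1` from `0` to `k` -/
def NN : ℕ → ℤ → ℕ
  | 0, k => if k = 0 then 1 else 0
  | n + 1, k => NN n (k - 1) + NN n (k + 1)

/-- number of paths of `n` steps `±1` from `k ≥ 0` to `0` which reach `0` at the last step only -/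
def FP : ℕ → ℕ → ℕ
  | 0, 0 => 1
  | 0, _ + 1 => 0
  | _ + 1, 0 => 0
  | n + 1, k + 1 => FP n k + FP n (k + 2)

/-- `(b/2)^n / n!` -/
noncomputable def wN (b : ℝ) (n : ℕ) : ℝ≥0∞ := ENNReal.ofReal ((b / 2) ^ n / (n ! : ℝ))

/-- the Bessel weight `I_k(b)` -/
noncomputable def Ib (b : ℝ) (k : ℤ) : ℝ≥0∞ := ∑' n : ℕ, wN b n * NN n k

lemma NN_zero (k : ℤ) : NN 0 k = if k = 0 then 1 else 0 := rfl

lemma NN_succ (n : ℕ) (k : ℤ) : NN (n + 1) k = NN n (k - 1) + NN n (k + 1) := rfl

lemma NN_neg (n : ℕ) (k : ℤ) : NN n (-k) = NN n k := by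
  induction n generalizing k with
  | zero => simp [NN_zero]
  | succ n ih =>
    rw [NN_succ, NN_succ, show -k - 1 = -(k + 1) by ring, show -k + 1 = -(k - 1) by ring, ih, ih,
      add_comm]

lemma NN_natAbs (n : ℕ) (k : ℤ) : NN n (k.natAbs : ℤ) = NN n k := by
  rcases Int.natAbs_eq k with h | h
  · rw [← h]
  · conv_rhs => rw [h]
    rw [NN_neg]

lemma NN_zero_of_lt (n : ℕ) (k : ℤ) (h : (n : ℤ) < |k|) : NN n k = 0 := by
  induction n generalizing k with
  | zero =>
    rw [NN_zero, if_neg]
    rintro rfl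
    simp at h
  | succ n ih =>
    rw [lt_abs] at h
    push_cast at h
    rw [NN_succ, ih _ (by rw [lt_abs]; omega), ih _ (by rw [lt_abs]; omega)]

/-- parity -/
lemma NN_parity (n : ℕ) (k : ℤ) (h : NN n k ≠ 0) : (2 : ℤ) ∣ (n : ℤ) - k := by
  induction n generalizing k with
  | zero =>
    rw [NN_zero] at h
    split_ifs at h with h0
    · subst h0; simp
    · exact absurd rfl h
  | succ n ih =>
    rw [NN_succ] at h
    push_cast
    by_cases h1 : NN n (k - 1) = 0
    · have h2 : NN n (k + 1) ≠ 0 := by omega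
      have := ih _ h2
      omega
    · have := ih _ h1
      omega

lemma FP_zero_zero : FP 0 0 = 1 := rfl
lemma FP_zero_succ (k : ℕ) : FP 0 (k + 1) = 0 := rfl
lemma FP_succ_zero (n : ℕ) : FP (n + 1) 0 = 0 := rfl
lemma FP_succ_succ (n k : ℕ) : FP (n + 1) (k + 1) = FP n k + FP n (k + 2) := rfl

lemma FP_parity (n k : ℕ) (h : FP n k ≠ 0) : (2 : ℤ) ∣ (n : ℤ) - k := by
  induction n generalizing k with
  | zero =>
    cases k with
    | zero => simp
    | succ k => exact absurd (FP_zero_succ k) h
  | succ n ih =>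
    cases k with
    | zero => exact absurd (FP_succ_zero n) h
    | succ k =>
      rw [FP_succ_succ] at h
      push_cast
      by_cases h1 : FP n k = 0
      · have h2 : FP n (k + 2) ≠ 0 := by omega
        have := ih _ h2
        push_cast at this
        omega
      · have := ih _ h1
        omega

/-- first passage decomposition -/
lemma NN_add (n k m : ℕ) :
    NN n ((k : ℤ) + m) = ∑ ij ∈ antidiagonal n, FP ij.1 k * NN ij.2 m := by
  induction n generalizing k with
  | zero =>
    rw [Finset.Nat.antidiagonal_zero, Finset.sum_singleton]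
    cases k with
    | zero => simp [FP_zero_zero]
    | succ k =>
      rw [FP_zero_succ, zero_mul, NN_zero, if_neg]
      omega
  | succ n ih =>
    rw [Finset.Nat.antidiagonal_succ, Finset.sum_cons, Finset.sum_map]
    cases k with
    | zero =>
      rw [FP_zero_zero]
      simp only [Function.Embedding.prodMap, Function.Embedding.coeFn_mk, Prod.map, 
        Function.Embedding.refl_apply, Nat.succ_eq_add_one, FP_succ_zero, zero_mul,
        Finset.sum_const_zero, add_zero, one_mul]
      simp
    | succ k =>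
      rw [FP_zero_succ, zero_mul, zero_add]
      simp only [Function.Embedding.prodMap, Function.Embedding.coeFn_mk, Prod.map,
        Function.Embedding.refl_apply, Nat.succ_eq_add_one, FP_succ_succ, add_mul,
        Finset.sum_add_distrib]
      rw [← ih k, ← ih (k + 2), NN_succ]
      push_cast
      congr 2 <;> ring

/-- Chapman-Kolmogorov -/
lemma NN_ck (i j : ℕ) (a : ℤ) :
    (NN (i + j) a : ℝ≥0∞) = ∑' σ : ℤ, (NN i σ : ℝ≥0∞) * NN j (a - σ) := by
  induction i generalizing a with
  | zero =>
    rw [tsum_eq_single 0]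
    · simp [NN_zero]
    · intro σ hσ
      simp [NN_zero, hσ]
  | succ i ih =>
    have e : ∀ σ : ℤ, (NN (i + 1) σ : ℝ≥0∞) * NN j (a - σ) =
        NN i (σ - 1) * NN j (a - σ) + NN i (σ + 1) * NN j (a - σ) := by
      intro σ
      rw [NN_succ]
      push_cast
      ring
    simp only [e]
    rw [ENNReal.tsum_add, show i + 1 + j = i + j + 1 by ring, NN_succ]
    push_cast
    rw [ih, ih]
    congr 1
    · rw [← (Equiv.addRight (1 : ℤ)).tsum_eq fun σ : ℤ => (NN i (σ - 1) : ℝ≥0∞) * NN j (a - σ)]
      refine tsum_congr fun σ => ?_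
      simp only [Equiv.coe_addRight]
      rw [show σ + 1 - 1 = σ by ring, show a - (σ + 1) = a - 1 - σ by ring]
    · rw [← (Equiv.subRight (1 : ℤ)).tsum_eq fun σ : ℤ => (NN i (σ + 1) : ℝ≥0∞) * NN j (a - σ)]
      refine tsum_congr fun σ => ?_
      simp only [Equiv.subRight_apply]
      rw [show σ - 1 + 1 = σ by ring, show a - (σ - 1) = a + 1 - σ by ring]

/-- paths of the square lattice -/
lemma NN_mul (n : ℕ) (a c : ℤ) :
    NN n (a + c) * NN n (a - c) =
      ∑ ij ∈ antidiagonal n, n.choose ij.1 * (NN ij.1 a * NN ij.2 c) := by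
  induction n generalizing a c with
  | zero =>
    rw [Finset.Nat.antidiagonal_zero, Finset.sum_singleton]
    simp only [NN_zero, Nat.choose_self, one_mul]
    by_cases ha : a = 0
    · subst ha
      by_cases hc : c = 0
      · subst hc; simp
      · simp [hc]
    · by_cases h1 : a + c = 0
      · have h2 : a - c ≠ 0 := by omega
        simp [ha, h2]
      · simp [ha, h1]
  | succ n ih =>
    have h := Finset.sum_antidiagonal_choose_succ_mul (R := ℕ)
      (fun i j => NN i a * NN j c) n
    simp only [Nat.cast_id] at h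
    rw [h]
    have h2 : ∑ ij ∈ antidiagonal n, n.choose ij.1 * (NN ij.1 a * NN (ij.2 + 1) c) =
        NN n (a + (c - 1)) * NN n (a - (c - 1)) + NN n (a + (c + 1)) * NN n (a - (c + 1)) := by
      rw [ih, ih, ← Finset.sum_add_distrib]
      refine Finset.sum_congr rfl fun ij _ => ?_
      rw [NN_succ]
      ring
    have h3 : ∑ ij ∈ antidiagonal n, n.choose ij.2 * (NN (ij.1 + 1) a * NN ij.2 c) =
        NN n (a - 1 + c) * NN n (a - 1 - c) + NN n (a + 1 + c) * NN n (a + 1 - c) := by
      rw [ih, ih, ← Finset.sum_add_distrib]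
      refine Finset.sum_congr rfl fun ij hij => ?_
      rw [mem_antidiagonal] at hij
      rw [NN_succ, ← Nat.choose_symm_of_eq_add (n := n) (a := ij.1) (b := ij.2) hij.symm]
      ring
    rw [h2, h3, NN_succ, NN_succ, show a + (c - 1) = a + c - 1 by ring,
      show a - (c - 1) = a - c + 1 by ring, show a + (c + 1) = a + c + 1 by ring,
      show a - (c + 1) = a - c - 1 by ring, show a - 1 + c = a + c - 1 by ring,
      show a - 1 - c = a - c - 1 by ring, show a + 1 + c = a + c + 1 by ring,
      show a + 1 - c = a - c + 1 by ring]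
    ring

end Vale.Agent.P159.TM.H131
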