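import Vale.Agent.P159.TM.H131.Rest
import Vale.Agent.P159.TM.H821.Model
import Vale.Agent.P159.TM.H870.Strip

/-!
E2: the rest of a cluster, with the duplication inequalities of H821 plugged in.
-/

open MeasureTheory Filter Topology Finset
open scoped ENNReal Nat

set_option linter.unusedSectionVars false

namespace Vale.Agent.P159.TM.H131

open Vale.Agent.P159.H353 Vale.Agent.P159.T1.H897 Vale.Agent.P159.TM.H60
open Vale.Agent.P159.TM.H821 (Dup Zt Wt pin0 dup_wI dup_mass rest_le pin_le)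

lemma dup_Ib {b : ℝ} (hb : 0 ≤ b) : Dup (fun n : ℤ => Ib b n) := by
  have h := dup_wI hb
  simp only [← Ib_eq hb] at h
  exact h

lemma Ib_le {b : ℝ} (hb : 0 ≤ b) (n : ℤ) : Ib b n ≤ ENNReal.ofReal (wI b 0) := by
  rw [Ib_eq hb]
  refine ENNReal.ofReal_le_ofReal (wI_anti hb ?_)
  simp

lemma Ib_zero_pos {b : ℝ} (hb : 0 ≤ b) : 0 < Ib b 0 := by
  rw [Ib_eq hb, ENNReal.ofReal_pos]
  exact wI_zero_pos hb

section model

variable {V E P : Type} [Fintype V] [Fintype E] [Fintype P]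

/-- the masses -/
noncomputable def MM (m : V → ℝ) (u : V → ℝ) : ℝ≥0∞ :=
  ENNReal.ofReal (Real.exp (-∑ x, m x / 2 * u x ^ 2))

lemma MM_neg (m : V → ℝ) (u : V → ℝ) : MM m (-u) = MM m u := by
  unfold MM
  simp

/-- finiteness of the partition function -/
lemma Zt_ne_top (s t : E → V) (b : E → ℝ) (hb : ∀ e, 0 ≤ b e) (pt : P → V) (c : P → ℝ)
    (hc : ∀ p, 0 ≤ c p) (m : V → ℝ) (hm : ∀ v, 0 < m v) :
    Zt s t (fun e n => Ib (b e) n) pt (fun p n => Ib (c p) n) (MM m) 0 0 0 ≠ ⊤ := by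
  have h1 : ∀ h : V → ℤ, Wt s t (fun e n => Ib (b e) n) pt (fun p n => Ib (c p) n) (MM m) h 0 0 0 ≤
      ((∏ p, ENNReal.ofReal (wI (c p) 0)) * ∏ e, ENNReal.ofReal (wI (b e) 0)) *
        ENNReal.ofReal (H870.gr m h (fun _ => 0)) := by
    intro h
    unfold Wt
    rw [mul_assoc]
    refine mul_le_mul' (Finset.prod_le_prod' fun p _ => Ib_le (hc p) _)
      (mul_le_mul' (Finset.prod_le_prod' fun e _ => Ib_le (hb e) _) ?_)
    unfold MM H870.gr
    simp
  have h2 : ∑' h : V → ℤ, ((∏ p, ENNReal.ofReal (wI (c p) 0)) *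
      ∏ e, ENNReal.ofReal (wI (b e) 0)) * ENNReal.ofReal (H870.gr m h (fun _ => 0)) ≠ ⊤ := by
    rw [ENNReal.tsum_mul_left]
    refine ENNReal.mul_ne_top (ENNReal.mul_ne_top (ENNReal.prod_ne_top fun _ _ =>
      ENNReal.ofReal_ne_top) (ENNReal.prod_ne_top fun _ _ => ENNReal.ofReal_ne_top)) ?_
    classical
    rw [← ENNReal.ofReal_tsum_of_nonneg (fun h => (H870.gr_pos m h _).le)
      (H870.summable_gr hm _)]
    exact ENNReal.ofReal_ne_top
  exact ne_top_of_le_ne_top h2 (ENNReal.tsum_le_tsum h1)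

lemma Zt_ne_zero (s t : E → V) (b : E → ℝ) (hb : ∀ e, 0 ≤ b e) (pt : P → V) (c : P → ℝ)
    (hc : ∀ p, 0 ≤ c p) (m : V → ℝ) :
    Zt s t (fun e n => Ib (b e) n) pt (fun p n => Ib (c p) n) (MM m) 0 0 0 ≠ 0 := by
  intro h
  unfold Zt at h
  rw [ENNReal.tsum_eq_zero] at h
  have h1 := h 0
  unfold Wt MM at h1
  simp only [Pi.zero_apply, sub_zero, Int.cast_zero, mul_zero, Finset.sum_const_zero,
    Real.exp_zero, ENNReal.ofReal_one, mul_one, neg_zero, ne_eq, OfNat.ofNat_ne_zero,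
    not_false_eq_true, zero_pow] at h1
  rw [mul_eq_zero, Finset.prod_eq_zero_iff, Finset.prod_eq_zero_iff] at h1
  rcases h1 with ⟨p, -, hp⟩ | ⟨e, -, he⟩
  · exact (Ib_zero_pos (hc p)).ne' hp
  · exact (Ib_zero_pos (hb e)).ne' he

end model

section rest

variable {V E : Type} [Fintype V] [DecidableEq V] [Fintype E] [DecidableEq E]
variable (s t : E → V) (A : Finset V) {b : E → ℝ}

/-- the edges off `A` -/
def so (e : {e // e ∈ outE s t A}) : {v // v ∉ A} := ⟨s e.1, (mem_outE.1 e.2).1⟩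

/-- the edges off `A` -/
def tO (e : {e // e ∈ outE s t A}) : {v // v ∉ A} := ⟨t e.1, (mem_outE.1 e.2).2⟩

/-- the pins -/
def po (e : {e // e ∈ bdE s t A}) : {v // v ∉ A} := ⟨out s t A e.1, out_not_mem s t A e.2⟩

lemma FO_eq (h : {v // v ∉ A} → ℤ) :
    FO s t A b h = ∏ e : {e // e ∈ outE s t A}, Ib (b e.1) (h (tO s t A e) - h (so s t A e)) := by
  rw [FO, ← Finset.prod_coe_sort]
  refine Finset.prod_congr rfl fun e _ => ?_
  have h1 := mem_outE.1 e.2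
  simp [gl, h1.1, h1.2, so, tO]

lemma FE_eq (ζ : E → ℤ) (τ : E → ℝ) (h : {v // v ∉ A} → ℤ) :
    FE s t A b ζ τ h =
      ∏ e : {e // e ∈ bdE s t A}, Ib (b e.1 * (1 - τ e.1)) (h (po s t A e) - ζ e.1) := by
  rw [FE, ← Finset.prod_coe_sort]
  refine Finset.prod_congr rfl fun e _ => ?_
  have h1 := out_not_mem s t A e.2
  simp [gl, h1, po]

lemma GA_eq (m f : V → ℝ) (h : {v // v ∉ A} → ℤ) :
    GA A m f h = MM (fun v : {v // v ∉ A} => m v) (fun v => (h v : ℝ) - f v) := by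
  rw [GA, MM, ← ENNReal.ofReal_prod_of_nonneg fun _ _ => (Real.exp_pos _).le, ← Real.exp_sum]
  congr 2
  rw [← Finset.sum_neg_distrib]
  refine Finset.sum_congr rfl fun v _ => ?_
  ring

lemma ZF_eq (m : V → ℝ) (ζ : E → ℤ) (τ : E → ℝ) (f g : V → ℝ) :
    ZF s t A b m ζ τ f g = Zt (so s t A) (tO s t A) (fun e n => Ib (b e.1) n) (po s t A)
      (fun p n => Ib (b p.1 * (1 - τ p.1)) n) (MM fun v : {v // v ∉ A} => m v)
      (fun p => ζ p.1) (fun v => f v.1) (fun v => g v.1) := by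
  unfold ZF Zt Wt
  refine tsum_congr fun h => ?_
  rw [FO_eq, FE_eq, GA_eq]
  unfold TI
  ring

lemma Zp_eq (m : V → ℝ) (g : V → ℝ) :
    Zp s t A b m g = Zt (so s t A) (tO s t A) (fun e n => Ib (b e.1) n) (po s t A)
      pin0 (MM fun v : {v // v ∉ A} => m v) 0 0 (fun v => g v.1) := by
  unfold Zp Zt Wt
  refine tsum_congr fun h => ?_
  rw [FO_eq, GA_eq]
  have e1 : (if ∀ e ∈ bdE s t A, gl A (fun _ => 0) h (out s t A e) = 0 then (1 : ℝ≥0∞) else 0) =
      ∏ p : {e // e ∈ bdE s t A}, pin0 p (h (po s t A p) - (0 : {e // e ∈ bdE s t A} → ℤ) p) := by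
    have e2 : ∀ p : {e // e ∈ bdE s t A}, gl A (fun _ => 0) h (out s t A p.1) = h (po s t A p) := by
      intro p
      have h1 := out_not_mem s t A p.2
      simp [gl, h1, po]
    split_ifs with hc
    · symm
      refine Finset.prod_eq_one fun p _ => ?_
      have := hc p.1 p.2
      rw [e2] at this
      simp [pin0, this]
    · symm
      push Not at hc
      obtain ⟨e, he, hne⟩ := hc
      refine Finset.prod_eq_zero (Finset.mem_univ (⟨e, he⟩ : {e // e ∈ bdE s t A})) ?_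
      rw [e2 ⟨e, he⟩] at hne
      simp [pin0, hne]
  rw [e1]
  unfold TI
  simp only [Pi.zero_apply, sub_zero]
  ring

/-- the pinned inequality for two copies -/
theorem hpin2 (hb : ∀ e, 0 ≤ b e) (m f g : V → ℝ) (hm : ∀ v, 0 < m v) (ζ : E → ℤ) (τ : E → ℝ)
    (hτ : ∀ e, τ e ∈ Set.Icc (0 : ℝ) 1) :
    Zp s t A b m g ^ 2 * ZF s t A b m ζ τ f (fun _ => 0) ^ 2 ≤
        Zp s t A b m (fun _ => 0) ^ 2 *
          (ZF s t A b m ζ τ f g * ZF s t A b m ζ τ f (fun v => - g v)) := by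
  have hc : ∀ p : {e // e ∈ bdE s t A}, 0 ≤ b p.1 * (1 - τ p.1) := fun p =>
    mul_nonneg (hb _) (by linarith [(hτ p.1).2])
  have h := rest_le (s := so s t A) (t := tO s t A) (I := fun e n => Ib (b e.1) n)
    (pt := po s t A) (J := fun p n => Ib (b p.1 * (1 - τ p.1)) n)
    (M := MM fun v : {v // v ∉ A} => m v)
    (fun e => dup_Ib (hb _)) (fun p => dup_Ib (hc p)) (dup_mass _) (fun e n => Ib_neg _ _)
    (fun p n => Ib_neg _ _) (fun u => MM_neg _ u)
    (Zt_ne_zero _ _ (fun e : {e // e ∈ outE s t A} => b e.1) (fun e => hb _) _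
      (fun p : {e // e ∈ bdE s t A} => b p.1 * (1 - τ p.1)) hc _)
    (Zt_ne_top _ _ (fun e : {e // e ∈ outE s t A} => b e.1) (fun e => hb _) _
      (fun p : {e // e ∈ bdE s t A} => b p.1 * (1 - τ p.1)) hc _ fun v => hm _)
    (fun p => ζ p.1) (fun v => f v.1) (fun v => g v.1)
  rw [ZF_eq, ZF_eq, ZF_eq, Zp_eq, Zp_eq, mul_comm]
  exact h

/-- the pinned inequality for one copy -/
theorem hpin1 (hb : ∀ e, 0 ≤ b e) (m g : V → ℝ) (τ : E → ℝ)
    (hτ : ∀ e, τ e ∈ Set.Icc (0 : ℝ) 1) :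
    Zp s t A b m g * ZF s t A b m (fun _ => 0) τ (fun _ => 0) (fun _ => 0) ≤
        Zp s t A b m (fun _ => 0) * ZF s t A b m (fun _ => 0) τ (fun _ => 0) g := by
  have hc : ∀ p : {e // e ∈ bdE s t A}, 0 ≤ b p.1 * (1 - τ p.1) := fun p =>
    mul_nonneg (hb _) (by linarith [(hτ p.1).2])
  have h := pin_le (s := so s t A) (t := tO s t A) (I := fun e n => Ib (b e.1) n)
    (pt := po s t A) (J := fun p n => Ib (b p.1 * (1 - τ p.1)) n)
    (M := MM fun v : {v // v ∉ A} => m v)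
    (fun e => dup_Ib (hb _)) (dup_mass _) (fun e n => Ib_neg _ _)
    (fun p n => Ib_neg _ _) (fun u => MM_neg _ u) (fun v => 0) (fun v => g v.1)
  rw [ZF_eq, ZF_eq, Zp_eq, Zp_eq, mul_comm]
  exact h

/-- **E2, two copies** -/
theorem rest2 (hb : ∀ e, 0 ≤ b e) (m f g : V → ℝ) (hm : ∀ v, 0 < m v) (x : V → ℤ × ℤ)
    (hx : ∀ e ∈ bdE s t A, (x (inn s t A e)).1 ≠ (x (inn s t A e)).2) :
    Zp s t A b m g ^ 2 * ∑' y, restw s t A b m f x y ≤
      Zp s t A b m (fun _ => 0) ^ 2 * ∑' y, restw s t A b m f x y *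
        ENNReal.ofReal (Real.exp (∑ v : {v // v ∉ A}, g v * (((y v).1 : ℝ) - (y v).2))) :=
  rest_two s t A hb m f g x hx fun ζ τ hτ => hpin2 s t A hb m f g hm ζ τ hτ

/-- **E2, one copy** -/
theorem rest1 (hb : ∀ e, 0 ≤ b e) (m g : V → ℝ) (x : V → ℤ)
    (hx : ∀ e ∈ bdE s t A, x (inn s t A e) ≠ 0) :
    Zp s t A b m g * ∑' y, restw1 s t A b m x y ≤
      Zp s t A b m (fun _ => 0) * ∑' y, restw1 s t A b m x y *
        ENNReal.ofReal (Real.exp (∑ v : {v // v ∉ A}, g v * (y v : ℝ))) :=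
  rest_one s t A hb m g x hx fun τ hτ => hpin1 s t A hb m g τ hτ

end rest

end Vale.Agent.P159.TM.H131
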