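import Vale.Agent.P159.TM.H131.Bes

/-!
The closed edge decompositions: the product formula of the Bessel weights, the Beta integral,
and the weight of a closed edge as a mixture of pinned edges.
-/

open MeasureTheory Filter Topology Finset
open scoped ENNReal Nat

namespace Vale.Agent.P159.TM.H131

/-- a double sum summed along the antidiagonals -/
lemma tsum_anti (f : ℕ → ℕ → ℝ≥0∞) :
    ∑' n, ∑ ij ∈ antidiagonal n, f ij.1 ij.2 = ∑' i, ∑' j, f i j := by
  rw [← ENNReal.tsum_prod (f := f),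
    ← (Finset.HasAntidiagonal.sigmaAntidiagonalEquivProd (A := ℕ)).tsum_eq, ENNReal.tsum_sigma']
  refine tsum_congr fun n => ?_
  rw [← Finset.tsum_subtype]
  rfl

lemma wN_mul {b : ℝ} (hb : 0 ≤ b) (i j : ℕ) :
    wN b i * wN b j = wN b (i + j) * ((i + j).choose i : ℝ≥0∞) := by
  unfold wN
  rw [← ENNReal.ofReal_mul (by positivity), ← ENNReal.ofReal_natCast,
    ← ENNReal.ofReal_mul (by positivity)]
  congr 1
  have h := Nat.add_choose_mul_factorial_mul_factorial i j
  rw [← Nat.choose_symm_add] at h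
  have h' : (((i + j).choose i : ℕ) : ℝ) * (i ! : ℝ) * (j ! : ℝ) = ((i + j)! : ℝ) := by
    exact_mod_cast h
  have hi : (i ! : ℝ) ≠ 0 := by positivity
  have hj : (j ! : ℝ) ≠ 0 := by positivity
  have hij : ((i + j)! : ℝ) ≠ 0 := by positivity
  rw [pow_add]
  field_simp
  rw [← h']
  ring

/-- the product of two Bessel weights -/
theorem Ib_mul {b : ℝ} (hb : 0 ≤ b) (a c : ℤ) :
    Ib b a * Ib b c = ∑' n : ℕ, wN b n * ((NN n (a + c) : ℝ≥0∞) * NN n (a - c)) := by
  have h1 : ∀ n : ℕ, wN b n * ((NN n (a + c) : ℝ≥0∞) * NN n (a - c)) =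
      ∑ ij ∈ antidiagonal n, (wN b ij.1 * NN ij.1 a) * (wN b ij.2 * NN ij.2 c) := by
    intro n
    rw [← Nat.cast_mul, NN_mul, Nat.cast_sum, Finset.mul_sum]
    refine Finset.sum_congr rfl fun ij hij => ?_
    rw [mem_antidiagonal] at hij
    have := wN_mul hb ij.1 ij.2
    rw [hij] at this
    push_cast
    calc wN b n * ((n.choose ij.1 : ℝ≥0∞) * ((NN ij.1 a : ℝ≥0∞) * NN ij.2 c)) =
        (wN b n * (n.choose ij.1 : ℝ≥0∞)) * ((NN ij.1 a : ℝ≥0∞) * NN ij.2 c) := by ring
      _ = _ := by rw [← this]; ring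
  simp only [h1]
  rw [tsum_anti fun i j => (wN b i * NN i a) * (wN b j * NN j c)]
  unfold Ib
  rw [← ENNReal.tsum_mul_right]
  refine tsum_congr fun i => ?_
  rw [ENNReal.tsum_mul_left]

lemma Ib_neg (b : ℝ) (k : ℤ) : Ib b (-k) = Ib b k := by
  unfold Ib
  simp only [NN_neg]

lemma Ib_natAbs (b : ℝ) (k : ℤ) : Ib b (k.natAbs : ℤ) = Ib b k := by
  unfold Ib
  simp only [NN_natAbs]

/-- the Beta integral -/
lemma beta_int (i k : ℕ) :
    ∫ t in (0 : ℝ)..1, t ^ i * (1 - t) ^ k = (i ! : ℝ) * (k ! : ℝ) / ((i + k + 1)! : ℝ) := by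
  induction k generalizing i with
  | zero =>
    simp only [pow_zero, mul_one, Nat.factorial_zero, Nat.cast_one, add_zero]
    rw [integral_pow, one_pow, zero_pow (Nat.succ_ne_zero i), sub_zero, Nat.factorial_succ]
    have hi : (i ! : ℝ) ≠ 0 := by positivity
    push_cast
    field_simp
  | succ k ih =>
    have hd : ∀ t ∈ Set.uIcc (0 : ℝ) 1, HasDerivAt (fun t : ℝ => t ^ (i + 1) * (1 - t) ^ (k + 1))
        (((i + 1 : ℕ) : ℝ) * t ^ i * (1 - t) ^ (k + 1) +
          t ^ (i + 1) * (((k + 1 : ℕ) : ℝ) * (1 - t) ^ k * (-1))) t := by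
      intro t _
      have h1 : HasDerivAt (fun t : ℝ => t ^ (i + 1)) (((i + 1 : ℕ) : ℝ) * t ^ i) t := by
        simpa using hasDerivAt_pow (i + 1) t
      have h2 : HasDerivAt (fun t : ℝ => (1 - t) ^ (k + 1))
          (((k + 1 : ℕ) : ℝ) * (1 - t) ^ k * (-1)) t := by
        have h3 : HasDerivAt (fun t : ℝ => 1 - t) (-1) t := by
          simpa using (hasDerivAt_id t).const_sub 1
        have h4 := h3.fun_pow (k + 1)
        simpa using h4
      exact h1.mul h2
    have hI := intervalIntegral.integral_eq_sub_of_hasDerivAt hd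
      (Continuous.intervalIntegrable (by fun_prop) _ _)
    have e : ∀ t : ℝ, (((i + 1 : ℕ) : ℝ) * t ^ i * (1 - t) ^ (k + 1) +
          t ^ (i + 1) * (((k + 1 : ℕ) : ℝ) * (1 - t) ^ k * (-1))) =
        ((i + 1 : ℕ) : ℝ) * (t ^ i * (1 - t) ^ (k + 1)) -
          ((k + 1 : ℕ) : ℝ) * (t ^ (i + 1) * (1 - t) ^ k) := by
      intro t; ring
    simp only [e] at hI
    rw [intervalIntegral.integral_sub, intervalIntegral.integral_const_mul,
      intervalIntegral.integral_const_mul, ih] at hI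
    · rw [sub_self, zero_pow (Nat.succ_ne_zero _), mul_zero, zero_pow (Nat.succ_ne_zero _),
        zero_mul, sub_zero, sub_eq_zero] at hI
      have hi : ((i + 1 : ℕ) : ℝ) ≠ 0 := by positivity
      have hi2 : (i ! : ℝ) ≠ 0 := by positivity
      have hk : (k ! : ℝ) ≠ 0 := by positivity
      have hf : ((i + 1 + k + 1)! : ℝ) ≠ 0 := by positivity
      have h5 : ∫ t in (0 : ℝ)..1, t ^ i * (1 - t) ^ (k + 1) =
          (((i + 1 : ℕ) : ℝ))⁻¹ * (((k + 1 : ℕ) : ℝ) *
            (((i + 1)! : ℝ) * (k ! : ℝ) / ((i + 1 + k + 1)! : ℝ))) := by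
        rw [← hI, ← mul_assoc, inv_mul_cancel₀ hi, one_mul]
      rw [h5, show i + (k + 1) + 1 = i + 1 + k + 1 by ring, Nat.factorial_succ i,
        Nat.factorial_succ k]
      push_cast at hi ⊢
      field_simp
    · exact Continuous.intervalIntegrable (by fun_prop) _ _
    · exact Continuous.intervalIntegrable (by fun_prop) _ _

/-- the density of the passage -/
noncomputable def dens (b t : ℝ) (i : ℕ) : ℝ≥0∞ :=
  ENNReal.ofReal ((b / 2) ^ (i + 1) * t ^ i / (i ! : ℝ))

lemma wN_split {b : ℝ} (hb : 0 ≤ b) (i k : ℕ) :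
    wN b (i + 1 + k) = ∫⁻ t in Set.Icc (0 : ℝ) 1, dens b t i * wN (b * (1 - t)) k := by
  have h0 : ∀ t ∈ Set.Icc (0 : ℝ) 1, dens b t i * wN (b * (1 - t)) k =
      ENNReal.ofReal ((b / 2) ^ (i + 1 + k) / ((i ! : ℝ) * (k ! : ℝ)) * (t ^ i * (1 - t) ^ k)) := by
    intro t ht
    obtain ⟨h1, h2⟩ := ht
    unfold dens wN
    rw [← ENNReal.ofReal_mul (by positivity)]
    congr 1
    have hi : (i ! : ℝ) ≠ 0 := by positivity
    have hk : (k ! : ℝ) ≠ 0 := by positivity
    rw [show b * (1 - t) / 2 = b / 2 * (1 - t) by ring, mul_pow, pow_add (b / 2) (i + 1) k]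
    field_simp
  rw [setLIntegral_congr_fun measurableSet_Icc h0, ← ofReal_integral_eq_lintegral_ofReal]
  · unfold wN
    congr 1
    rw [integral_Icc_eq_integral_Ioc, ← intervalIntegral.integral_of_le zero_le_one,
      intervalIntegral.integral_const_mul, beta_int, show i + 1 + k = i + k + 1 by ring]
    have hi : (i ! : ℝ) ≠ 0 := by positivity
    have hk : (k ! : ℝ) ≠ 0 := by positivity
    field_simp
  · exact (Continuous.continuousOn (by fun_prop)).integrableOn_Icc
  · refine (ae_restrict_iff' measurableSet_Icc).2 (Eventually.of_forall fun t ht => ?_)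
    have h1 := ht.1
    have h2 : 0 ≤ 1 - t := by linarith [ht.2]
    show (0 : ℝ) ≤ _
    positivity

/-- the kernel of one copy -/
noncomputable def ker1 (b t : ℝ) (d : ℤ) : ℝ≥0∞ := ∑' i : ℕ, dens b t i * FP (i + 1) d.natAbs

/-- the kernel of two copies -/
noncomputable def ker2 (b t : ℝ) (s d ζ : ℤ) : ℝ≥0∞ :=
  ∑' i : ℕ, dens b t i * ((FP (i + 1) d.natAbs : ℝ≥0∞) * NN (i + 1) (s - 2 * ζ))

lemma meas_dens (b : ℝ) (i : ℕ) : Measurable fun t : ℝ => dens b t i := by
  unfold dens
  exact ENNReal.measurable_ofReal.comp (by fun_prop)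

lemma meas_wN (b : ℝ) (k : ℕ) : Measurable fun t : ℝ => wN (b * (1 - t)) k := by
  unfold wN
  exact ENNReal.measurable_ofReal.comp (by fun_prop)

lemma meas_dw (b : ℝ) (i k : ℕ) : Measurable fun t : ℝ => dens b t i * wN (b * (1 - t)) k :=
  (meas_dens b i).mul (meas_wN b k)

lemma meas_Ib (b : ℝ) (k : ℤ) : Measurable fun t : ℝ => Ib (b * (1 - t)) k := by
  unfold Ib
  exact Measurable.tsum fun n => (meas_wN b n).mul_const _

lemma meas_ker1 (b : ℝ) (d : ℤ) : Measurable fun t : ℝ => ker1 b t d := by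
  unfold ker1
  exact Measurable.tsum fun n => (meas_dens b n).mul_const _

lemma meas_ker2 (b : ℝ) (s d ζ : ℤ) : Measurable fun t : ℝ => ker2 b t s d ζ := by
  unfold ker2
  exact Measurable.tsum fun n => (meas_dens b n).mul_const _

/-- first passage for the sums of the lengths -/
lemma tsum_first (g : ℕ → ℝ≥0∞) (d m : ℕ) (hd : d ≠ 0) :
    ∑' n, g n * NN n ((d : ℤ) + m) =
      ∑' i, ∑' k, g (i + 1 + k) * ((FP (i + 1) d : ℝ≥0∞) * NN k m) := by
  have h1 : ∀ n : ℕ, g n * (NN n ((d : ℤ) + m) : ℝ≥0∞) =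
      ∑ ij ∈ antidiagonal n, g (ij.1 + ij.2) * ((FP ij.1 d : ℝ≥0∞) * NN ij.2 m) := by
    intro n
    rw [NN_add, Nat.cast_sum, Finset.mul_sum]
    refine Finset.sum_congr rfl fun ij hij => ?_
    rw [mem_antidiagonal] at hij
    rw [hij]
    push_cast
    rfl
  simp only [h1]
  rw [tsum_anti fun i j => g (i + j) * ((FP i d : ℝ≥0∞) * NN j m), tsum_eq_zero_add' ENNReal.summable]
  obtain ⟨e, rfl⟩ := Nat.exists_eq_succ_of_ne_zero hd
  simp only [Nat.succ_eq_add_one, FP_zero_succ, Nat.cast_zero, zero_mul, mul_zero, tsum_zero, zero_add]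

/-- **one copy: the closed edge at a site with `d ≠ 0`** -/
theorem closed1 {b : ℝ} (hb : 0 ≤ b) (d m : ℤ) (hd : d ≠ 0) :
    Ib b (|d| + |m|) = ∫⁻ t in Set.Icc (0 : ℝ) 1, ker1 b t d * Ib (b * (1 - t)) m := by
  have e1 : |d| + |m| = (d.natAbs : ℤ) + (m.natAbs : ℤ) := by
    rw [Int.natCast_natAbs, Int.natCast_natAbs]
  rw [e1]
  unfold Ib
  rw [tsum_first (wN b) d.natAbs m.natAbs (Int.natAbs_ne_zero.2 hd)]
  have e2 : ∀ t : ℝ, ker1 b t d * ∑' n : ℕ, wN (b * (1 - t)) n * (NN n m : ℝ≥0∞) =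
      ∑' i : ℕ, ∑' k : ℕ, dens b t i * wN (b * (1 - t)) k *
        ((FP (i + 1) d.natAbs : ℝ≥0∞) * NN k m) := by
    intro t
    unfold ker1
    rw [← ENNReal.tsum_mul_right]
    refine tsum_congr fun i => ?_
    rw [← ENNReal.tsum_mul_left]
    refine tsum_congr fun k => ?_
    ring
  simp only [e2]
  rw [lintegral_tsum]
  · refine tsum_congr fun i => ?_
    rw [lintegral_tsum]
    · refine tsum_congr fun k => ?_
      rw [lintegral_mul_const _ (meas_dw b i k), ← wN_split hb, NN_natAbs]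
    · intro k
      exact ((meas_dw b i k).mul_const _).aemeasurable
  · intro i
    exact (Measurable.tsum fun k =>
      (meas_dw b i k).mul_const _).aemeasurable

/-- the path version of the closed edge for two copies -/
noncomputable def Cl (b : ℝ) (Δ d m : ℤ) : ℝ≥0∞ :=
  ∑' n : ℕ, wN b n * ((NN n Δ : ℝ≥0∞) * NN n (|d| + |m|))

/-- **two copies: the closed edge at a site with `d ≠ 0`**: `s = 2 h - d` at the first site,
`(y, y')` the heights at the second site -/
theorem closed2 {b : ℝ} (hb : 0 ≤ b) (x x' y y' : ℤ) (hd : x ≠ x') :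
    Cl b (x + x' - (y + y')) (x - x') (y - y') =
      ∫⁻ t in Set.Icc (0 : ℝ) 1, ∑' ζ : ℤ, ker2 b t (x + x') (x - x') ζ *
        (Ib (b * (1 - t)) (y - ζ) * Ib (b * (1 - t)) (y' - ζ)) := by
  set s := x + x' with hs
  set d := x - x' with hdd
  set m := y - y' with hm
  have hd0 : d ≠ 0 := by rw [hdd]; omega
  have e1 : |d| + |m| = (d.natAbs : ℤ) + (m.natAbs : ℤ) := by
    rw [Int.natCast_natAbs, Int.natCast_natAbs]
  -- the left side
  have L : Cl b (s - (y + y')) d m = ∑' i : ℕ, ∑' k : ℕ, ∑' ζ : ℤ,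
      wN b (i + 1 + k) * (((FP (i + 1) d.natAbs : ℝ≥0∞) * NN (i + 1) (s - 2 * ζ)) *
        ((NN k (2 * ζ - (y + y')) : ℝ≥0∞) * NN k m)) := by
    unfold Cl
    have e3 : ∀ n : ℕ, wN b n * ((NN n (s - (y + y')) : ℝ≥0∞) * NN n (|d| + |m|)) =
        (fun n => wN b n * (NN n (s - (y + y')) : ℝ≥0∞)) n *
          (NN n ((d.natAbs : ℤ) + (m.natAbs : ℤ)) : ℝ≥0∞) := by
      intro n
      rw [e1]
      ring
    simp only [e3]
    rw [tsum_first (fun n => wN b n * (NN n (s - (y + y')) : ℝ≥0∞)) d.natAbs m.natAbs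
      (Int.natAbs_ne_zero.2 hd0)]
    refine tsum_congr fun i => tsum_congr fun k => ?_
    by_cases hF : FP (i + 1) d.natAbs = 0
    · simp [hF]
    · have hp := FP_parity _ _ hF
      rw [NN_ck (i + 1) k, NN_natAbs]
      -- only `σ = s - 2 ζ`
      have e4 : ∑' σ : ℤ, (NN (i + 1) σ : ℝ≥0∞) * NN k (s - (y + y') - σ) =
          ∑' ζ : ℤ, (NN (i + 1) (s - 2 * ζ) : ℝ≥0∞) * NN k (2 * ζ - (y + y')) := by
        have hinj : Function.Injective fun ζ : ℤ => s - 2 * ζ := by
          intro a c h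
          simp only at h
          omega
        have hsup : Function.support (fun σ : ℤ => (NN (i + 1) σ : ℝ≥0∞) *
            NN k (s - (y + y') - σ)) ⊆ Set.range fun ζ : ℤ => s - 2 * ζ := by
          intro σ hσ
          have h5 : NN (i + 1) σ ≠ 0 := by
            intro h6
            apply hσ
            simp [h6]
          have h7 := NN_parity _ _ h5
          refine ⟨(s - σ) / 2, ?_⟩
          simp only
          have h8 : (2 : ℤ) ∣ (d.natAbs : ℤ) - d := by
            rcases Int.natAbs_eq d with h | h <;> omega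
          omega
        rw [← hinj.tsum_eq hsup]
        refine tsum_congr fun ζ => ?_
        rw [show s - (y + y') - (s - 2 * ζ) = 2 * ζ - (y + y') by ring]
      rw [e4, show wN b (i + 1 + k) * (∑' ζ : ℤ, (NN (i + 1) (s - 2 * ζ) : ℝ≥0∞) *
        NN k (2 * ζ - (y + y'))) * ((FP (i + 1) d.natAbs : ℝ≥0∞) * NN k m) =
        (wN b (i + 1 + k) * ((FP (i + 1) d.natAbs : ℝ≥0∞) * NN k m)) *
        ∑' ζ : ℤ, (NN (i + 1) (s - 2 * ζ) : ℝ≥0∞) * NN k (2 * ζ - (y + y')) by ring,
        ← ENNReal.tsum_mul_left]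
      refine tsum_congr fun ζ => ?_
      ring
  rw [L]
  -- the right side
  have R : ∀ t ∈ Set.Icc (0 : ℝ) 1, ∑' ζ : ℤ, ker2 b t s d ζ *
        (Ib (b * (1 - t)) (y - ζ) * Ib (b * (1 - t)) (y' - ζ)) =
      ∑' i : ℕ, ∑' k : ℕ, ∑' ζ : ℤ, dens b t i * wN (b * (1 - t)) k *
        (((FP (i + 1) d.natAbs : ℝ≥0∞) * NN (i + 1) (s - 2 * ζ)) *
        ((NN k (2 * ζ - (y + y')) : ℝ≥0∞) * NN k m)) := by
    intro t ht
    have hbt : 0 ≤ b * (1 - t) := mul_nonneg hb (by linarith [ht.2])
    have e5 : ∀ ζ : ℤ, ker2 b t s d ζ *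
        (Ib (b * (1 - t)) (y - ζ) * Ib (b * (1 - t)) (y' - ζ)) =
        ∑' i : ℕ, ∑' k : ℕ, dens b t i * wN (b * (1 - t)) k *
        (((FP (i + 1) d.natAbs : ℝ≥0∞) * NN (i + 1) (s - 2 * ζ)) *
        ((NN k (2 * ζ - (y + y')) : ℝ≥0∞) * NN k m)) := by
      intro ζ
      rw [Ib_mul hbt]
      unfold ker2
      rw [← ENNReal.tsum_mul_right]
      refine tsum_congr fun i => ?_
      rw [← ENNReal.tsum_mul_left]
      refine tsum_congr fun k => ?_
      rw [show y - ζ + (y' - ζ) = -(2 * ζ - (y + y')) by ring, NN_neg,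
        show y - ζ - (y' - ζ) = m by rw [hm]; ring]
      ring
    simp only [e5]
    rw [ENNReal.tsum_comm]
    refine tsum_congr fun i => ?_
    rw [ENNReal.tsum_comm]
  rw [setLIntegral_congr_fun measurableSet_Icc R, lintegral_tsum]
  · refine tsum_congr fun i => ?_
    rw [lintegral_tsum]
    · refine tsum_congr fun k => ?_
      rw [lintegral_tsum]
      · refine tsum_congr fun ζ => ?_
        rw [lintegral_mul_const _ (meas_dw b i k), ← wN_split hb]
      · intro ζ
        exact ((meas_dw b i k).mul_const _).aemeasurable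
    · intro k
      exact (Measurable.tsum fun ζ =>
        (meas_dw b i k).mul_const _).aemeasurable
  · intro i
    exact (Measurable.tsum fun k => Measurable.tsum fun ζ =>
      (meas_dw b i k).mul_const _).aemeasurable

/-- the closed edge in terms of the two Bessel products -/
theorem Cl_eq {b : ℝ} (hb : 0 ≤ b) (x x' y y' : ℤ) :
    Cl b (x + x' - (y + y')) (x - x') (y - y') =
      if 0 < (x - x') * (y - y') then Ib b (x - y') * Ib b (x' - y)
      else Ib b (x - y) * Ib b (x' - y') := by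
  unfold Cl
  split_ifs with h
  · rw [Ib_mul hb]
    refine tsum_congr fun n => ?_
    rw [show x - y' + (x' - y) = x + x' - (y + y') by ring,
      ← NN_natAbs n (x - y' - (x' - y)), ← NN_natAbs n (|x - x'| + |y - y'|)]
    have : (|x - x'| + |y - y'|).natAbs = (x - y' - (x' - y)).natAbs := by
      rcases lt_trichotomy (x - x') 0 with h1 | h1 | h1
      · have h2 : y - y' < 0 := by nlinarith
        rw [abs_of_neg h1, abs_of_neg h2]; omega
      · rw [h1] at h; simp at h
      · have h2 : 0 < y - y' := by nlinarith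
        rw [abs_of_pos h1, abs_of_pos h2]; omega
    rw [this]
  · rw [Ib_mul hb]
    refine tsum_congr fun n => ?_
    rw [show x - y + (x' - y') = x + x' - (y + y') by ring,
      ← NN_natAbs n (x - y - (x' - y')), ← NN_natAbs n (|x - x'| + |y - y'|)]
    have : (|x - x'| + |y - y'|).natAbs = (x - y - (x' - y')).natAbs := by
      rw [not_lt] at h
      rcases le_total 0 (x - x') with h1 | h1
      · rcases le_total (y - y') 0 with h2 | h2
        · rw [abs_of_nonneg h1, abs_of_nonpos h2]; omega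
        · rcases eq_or_lt_of_le h1 with h3 | h3
          · rw [← h3, abs_zero, abs_of_nonneg h2]; omega
          · have h4 : y - y' = 0 := by
              rcases eq_or_lt_of_le h2 with h5 | h5
              · exact h5.symm
              · have := mul_pos h3 h5; omega
            rw [h4, abs_zero, abs_of_nonneg h1]; omega
      · rcases le_total 0 (y - y') with h2 | h2
        · rw [abs_of_nonpos h1, abs_of_nonneg h2]; omega
        · rcases eq_or_lt_of_le h1 with h3 | h3
          · rw [h3, abs_zero, abs_of_nonpos h2]; omega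
          · have h4 : y - y' = 0 := by
              rcases eq_or_lt_of_le h2 with h5 | h5
              · exact h5
              · have := mul_pos_of_neg_of_neg h3 h5; omega
            rw [h4, abs_zero, abs_of_nonpos h1]; omega
    rw [this]

end Vale.Agent.P159.TM.H131
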