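import Vale.Agent.P159.TM.H131.Edge

/-!
Mixtures: an inequality which holds for all pinned boundary edges holds for all mixtures of
pinned edges; bridge to the weights `wI` of the starting files.
-/

open MeasureTheory Filter Topology Finset
open scoped ENNReal Nat

namespace Vale.Agent.P159.TM.H131

section mix

variable {E X Ω : Type*} [Countable X] [MeasurableSpace Ω]

/-- **the multilinear step** -/
theorem mix (s : Finset E) (μ : E → Measure Ω) (G : E → Ω → X → ℝ≥0∞)
    (hG : ∀ e x, Measurable fun ω => G e ω x) (A B : X → ℝ≥0∞) (R : ℝ≥0∞) (ω₀ : E → Ω)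
    (h : ∀ ω : E → Ω, R * ∑' x, A x * ∏ e ∈ s, G e (ω e) x ≤ ∑' x, B x * ∏ e ∈ s, G e (ω e) x) :
    R * ∑' x, A x * ∏ e ∈ s, (∫⁻ ω, G e ω x ∂μ e) ≤
      ∑' x, B x * ∏ e ∈ s, ∫⁻ ω, G e ω x ∂μ e := by
  classical
  induction s using Finset.induction_on generalizing A B with
  | empty => simpa using h ω₀
  | insert e s he ih =>
    have key : ∀ F : X → ℝ≥0∞, ∑' x, F x * ∏ e ∈ insert e s, (∫⁻ ω, G e ω x ∂μ e) =
        ∫⁻ ω, ∑' x, (F x * G e ω x) * ∏ e ∈ s, (∫⁻ ω, G e ω x ∂μ e) ∂μ e := by
      intro F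
      rw [lintegral_tsum]
      · refine tsum_congr fun x => ?_
        rw [Finset.prod_insert he, lintegral_mul_const _ ((hG e x).const_mul _),
          lintegral_const_mul _ (hG e x), mul_assoc]
      · intro x
        exact (((hG e x).const_mul _).mul_const _).aemeasurable
    rw [key A, key B, ← lintegral_const_mul]
    · refine lintegral_mono fun ω => ?_
      refine ih (fun x => A x * G e ω x) (fun x => B x * G e ω x) fun ω' => ?_
      have h1 := h (Function.update ω' e ω)
      have h2 : ∀ (F : X → ℝ≥0∞) (x : X),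
          F x * ∏ e' ∈ insert e s, G e' (Function.update ω' e ω e') x =
          F x * G e ω x * ∏ e' ∈ s, G e' (ω' e') x := by
        intro F x
        rw [Finset.prod_insert he, Function.update_self, mul_assoc]
        congr 2
        refine Finset.prod_congr rfl fun e' he' => ?_
        rw [Function.update_of_ne]
        rintro rfl
        exact he he'
      simp only [h2] at h1
      exact h1
    · exact Measurable.tsum fun x => ((hG e x).const_mul _).mul_const _

end mix

/-- the space of the pins: height and time -/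
abbrev Pin : Type := ℤ × ℝ

/-- the measure on the pins -/
noncomputable def pinM : Measure Pin := Measure.count.prod (volume.restrict (Set.Icc (0 : ℝ) 1))

/-- integrals over the pins -/
theorem lintegral_pin (f : ℤ → ℝ → ℝ≥0∞) (hf : ∀ ζ, Measurable (f ζ)) :
    ∫⁻ ω : Pin, f ω.1 ω.2 ∂pinM = ∫⁻ t in Set.Icc (0 : ℝ) 1, ∑' ζ : ℤ, f ζ t := by
  have h1 : Measurable fun ω : Pin => f ω.1 ω.2 := measurable_from_prod_countable_right hf
  have h2 : ∫⁻ ω : Pin, f ω.1 ω.2 ∂pinM =
      ∫⁻ ζ : ℤ, ∫⁻ t, f ζ t ∂(volume.restrict (Set.Icc (0 : ℝ) 1)) ∂Measure.count :=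
    lintegral_prod (fun ω : Pin => f ω.1 ω.2) h1.aemeasurable
  rw [h2, lintegral_count, lintegral_tsum]
  exact fun ζ => (hf ζ).aemeasurable

/-- the pinned edge for two copies: kernel of the first site times the two edges to the pin -/
noncomputable def pinG (b : ℝ) (x x' y y' ζ : ℤ) (t : ℝ) : ℝ≥0∞ :=
  ker2 b t (x + x') (x - x') ζ * (Ib (b * (1 - t)) (y - ζ) * Ib (b * (1 - t)) (y' - ζ))

theorem meas_pinG (b : ℝ) (x x' y y' ζ : ℤ) : Measurable (pinG b x x' y y' ζ) :=
  (meas_ker2 _ _ _ _).mul ((meas_Ib _ _).mul (meas_Ib _ _))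

/-- the pinned edge for two copies is measurable in the pin -/
theorem meas_pin2 (b : ℝ) (x x' y y' : ℤ) :
    Measurable fun ω : Pin => pinG b x x' y y' ω.1 ω.2 :=
  measurable_from_prod_countable_right fun ζ => meas_pinG b x x' y y' ζ

/-- the closed edge for two copies as an integral over the pins -/
theorem closed2_pin {b : ℝ} (hb : 0 ≤ b) (x x' y y' : ℤ) (hd : x ≠ x') :
    Cl b (x + x' - (y + y')) (x - x') (y - y') = ∫⁻ ω : Pin, pinG b x x' y y' ω.1 ω.2 ∂pinM := by
  rw [closed2 hb x x' y y' hd, lintegral_pin (pinG b x x' y y') fun ζ => meas_pinG b x x' y y' ζ]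
  rfl

/-- the closed edge for one copy as an integral over the pins with height `0` -/
theorem meas_pin1 (b : ℝ) (d m : ℤ) : Measurable fun t : ℝ =>
    ker1 b t d * Ib (b * (1 - t)) m :=
  (meas_ker1 _ _).mul (meas_Ib _ _)

end Vale.Agent.P159.TM.H131
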