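import Vale.Agent.P159.TM.H131.Bind
import Vale.Agent.P159.TM.H60.Rest

/-!
E2 in the letters of the FK systems `two`, `one` of H60: the hypothesis (RB) of the tilt
inequality.
-/

open MeasureTheory Filter Topology Finset
open scoped ENNReal Nat

set_option linter.unusedSectionVars false

namespace Vale.Agent.P159.TM.H131

open Vale.Agent.P159.H353 Vale.Agent.P159.T1.H897 Vale.Agent.P159.TM.H60
open Vale.Agent.P159.TM.H821 (Dup Zt Wt pin0 dup_wI dup_mass rest_le pin_le)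
open Vale.Agent.P159.TM.H60.Sys (glu glu_mem glu_not_mem)

section rb

variable {V E : Type} [Fintype V] [DecidableEq V] [Fintype E] [DecidableEq E]
variable (s t : E → V) (A : Finset V) {b : E → ℝ}

/-- the site weight -/
noncomputable def sw (m f : V → ℝ) (v : V) (n : ℤ) : ℝ := Real.exp (-(m v / 2) * ((n : ℝ) - f v) ^ 2)

lemma sw_nonneg (m f : V → ℝ) (v : V) (n : ℤ) : 0 ≤ sw m f v n := (Real.exp_pos _).le

/-- the system of two copies -/
noncomputable def S2 (hb : ∀ e, 0 ≤ b e) (m f : V → ℝ) : Sys V E (ℤ × ℤ) :=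
  two s t (fun e => wI (b e)) (fun e n => wI_nonneg (hb e) n) (fun e => logC_wI (hb e))
    (sw m f) (sw_nonneg m f)

/-- the system of one copy -/
noncomputable def S1 (hb : ∀ e, 0 ≤ b e) (m : V → ℝ) : Sys V E ℤ :=
  one s t (fun e => wI (b e)) (fun e n => wI_nonneg (hb e) n) (fun e n => wI_neg _ _)
    (fun e => logC_wI (hb e)) (sw m (fun _ => 0)) (sw_nonneg m _) (fun v n => by
      unfold sw
      push_cast
      ring_nf)

lemma gl_glu {S : Type} (x : V → S) (y : {v // v ∉ A} → S) : gl A x y = glu A x y := rfl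

lemma restw_eq (hb : ∀ e, 0 ≤ b e) (m f : V → ℝ) (x : V → ℤ × ℤ) (y : {v // v ∉ A} → ℤ × ℤ) :
    restw s t A b m f x y = ENNReal.ofReal ((S2 s t hb m f).rstw A (glu A x y)) := by
  rw [(S2 s t hb m f).rstw_glu]
  have hcl : ∀ e, 0 ≤ (S2 s t hb m f).cl e (glu A x y ((S2 s t hb m f).s e))
      (glu A x y ((S2 s t hb m f).t e)) :=
    fun e => (S2 s t hb m f).cl_nonneg _ _ _
  have hfl : ∀ e, 0 ≤ (S2 s t hb m f).fl e (glu A x y ((S2 s t hb m f).s e))
      (glu A x y ((S2 s t hb m f).t e)) :=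
    fun e => (S2 s t hb m f).fl_nonneg _ _ _
  rw [ENNReal.ofReal_mul (mul_nonneg (Finset.prod_nonneg fun e _ => hcl e)
    (Finset.prod_nonneg fun e _ => hfl e)), ENNReal.ofReal_mul
    (Finset.prod_nonneg fun e _ => hcl e), ENNReal.ofReal_prod_of_nonneg fun e _ => hcl e,
    ENNReal.ofReal_prod_of_nonneg fun e _ => hfl e,
    ENNReal.ofReal_prod_of_nonneg fun v _ => (S2 s t hb m f).g_nonneg _ _]
  rfl

lemma restw1_eq (hb : ∀ e, 0 ≤ b e) (m : V → ℝ) (x : V → ℤ) (y : {v // v ∉ A} → ℤ) :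
    restw1 s t A b m x y = ENNReal.ofReal ((S1 s t hb m).rstw A (glu A x y)) := by
  rw [(S1 s t hb m).rstw_glu]
  have hcl : ∀ e, 0 ≤ (S1 s t hb m).cl e (glu A x y ((S1 s t hb m).s e))
      (glu A x y ((S1 s t hb m).t e)) :=
    fun e => (S1 s t hb m).cl_nonneg _ _ _
  have hfl : ∀ e, 0 ≤ (S1 s t hb m).fl e (glu A x y ((S1 s t hb m).s e))
      (glu A x y ((S1 s t hb m).t e)) :=
    fun e => (S1 s t hb m).fl_nonneg _ _ _
  rw [ENNReal.ofReal_mul (mul_nonneg (Finset.prod_nonneg fun e _ => hcl e)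
    (Finset.prod_nonneg fun e _ => hfl e)), ENNReal.ofReal_mul
    (Finset.prod_nonneg fun e _ => hcl e), ENNReal.ofReal_prod_of_nonneg fun e _ => hcl e,
    ENNReal.ofReal_prod_of_nonneg fun e _ => hfl e,
    ENNReal.ofReal_prod_of_nonneg fun v _ => (S1 s t hb m).g_nonneg _ _]
  unfold restw1
  congr 1
  · congr 1
    refine Finset.prod_congr rfl fun e _ => ?_
    unfold cl1
    congr 1
    show min (wI (b e) _) (wI (b e) _) = min (wI (b e) _) (wI (b e) _)
    congr 2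
    show glu A x y (t e) + glu A x y (s e) = glu A x y (t e) - -(glu A x y (s e))
    ring
  · refine Finset.prod_congr rfl fun v _ => ?_
    show _ = ENNReal.ofReal (Real.exp (-(m v / 2) * (((y v : ℤ) : ℝ) - 0) ^ 2))
    rw [sub_zero]

lemma pr_two (hb : ∀ e, 0 ≤ b e) (m f τ : V → ℝ) (x : V → ℤ × ℤ) (y : {v // v ∉ A} → ℤ × ℤ) :
    (S2 s t hb m f).pr τ Aᶜ (glu A x y) =
      ∑ v : {v // v ∉ A}, τ v * (((y v).1 : ℝ) - (y v).2) := by
  unfold Sys.pr
  rw [Finset.sum_subtype Aᶜ (p := fun v => v ∉ A) (fun v => Finset.mem_compl)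
    (fun v => τ v * (S2 s t hb m f).D (glu A x y) v)]
  refine Finset.sum_congr rfl fun v _ => ?_
  unfold Sys.D
  rw [glu_not_mem v.2]
  show τ v * (((y v).1 - (y v).2 : ℤ) : ℝ) = _
  push_cast
  ring

lemma pr_one (hb : ∀ e, 0 ≤ b e) (m τ : V → ℝ) (x : V → ℤ) (y : {v // v ∉ A} → ℤ) :
    (S1 s t hb m).pr τ Aᶜ (glu A x y) = ∑ v : {v // v ∉ A}, τ v * (y v : ℝ) := by
  unfold Sys.pr
  rw [Finset.sum_subtype Aᶜ (p := fun v => v ∉ A) (fun v => Finset.mem_compl)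
    (fun v => τ v * (S1 s t hb m).D (glu A x y) v)]
  refine Finset.sum_congr rfl fun v _ => ?_
  unfold Sys.D
  rw [glu_not_mem v.2]
  rfl

/-- **(RB), two copies, product form** -/
theorem rb_two (hb : ∀ e, 0 ≤ b e) (m f τ : V → ℝ) (hm : ∀ v, 0 < m v) (x : V → ℤ × ℤ)
    (hx : ∀ v ∈ A, (S2 s t hb m f).d (x v) ≠ 0) :
    Zp s t A b m τ ^ 2 * (S2 s t hb m f).restZ A x (fun _ => 1) ≤
      Zp s t A b m (fun _ => 0) ^ 2 * (S2 s t hb m f).restZ A x
        (fun z => ENNReal.ofReal (Real.exp ((S2 s t hb m f).pr τ Aᶜ z))) := by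
  have h := rest2 s t A hb m f τ hm x (fun e he => by
    have h1 := hx _ (inn_mem s t A he)
    intro h2
    exact h1 (sub_eq_zero.2 h2))
  unfold Sys.restZ
  simp only [pr_two, mul_one, ← restw_eq]
  exact h

/-- **(RB), one copy, product form** -/
theorem rb_one (hb : ∀ e, 0 ≤ b e) (m τ : V → ℝ) (x : V → ℤ)
    (hx : ∀ v ∈ A, (S1 s t hb m).d (x v) ≠ 0) :
    Zp s t A b m τ * (S1 s t hb m).restZ A x (fun _ => 1) ≤
      Zp s t A b m (fun _ => 0) * (S1 s t hb m).restZ A x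
        (fun z => ENNReal.ofReal (Real.exp ((S1 s t hb m).pr τ Aᶜ z))) := by
  have h := rest1 s t A hb m τ x (fun e he => hx _ (inn_mem s t A he))
  unfold Sys.restZ
  simp only [pr_one, mul_one, ← restw1_eq]
  exact h

/-! ### finiteness and the logarithmic form -/

lemma tilt_le (a g : ℝ) (ha : 0 < a) (n : ℝ) :
    Real.exp (-(a / 2) * n ^ 2 + g * n) ≤ Real.exp (g ^ 2 / a) * Real.exp (-(a / 2 / 2) * n ^ 2) := by
  rw [← Real.exp_add]
  refine Real.exp_le_exp.2 ?_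
  have h : 0 ≤ (a * n / 2 - g) ^ 2 / a := by positivity
  have e : g ^ 2 / a + -(a / 2 / 2) * n ^ 2 - (-(a / 2) * n ^ 2 + g * n) =
      (a * n / 2 - g) ^ 2 / a := by
    field_simp
    ring
  linarith

lemma Zp_ne_top (hb : ∀ e, 0 ≤ b e) (m τ : V → ℝ) (hm : ∀ v, 0 < m v) :
    Zp s t A b m τ ≠ ⊤ := by
  classical
  have h1 : ∀ h : {v // v ∉ A} → ℤ, (if ∀ e ∈ bdE s t A, gl A (fun _ => 0) h (out s t A e) = 0
      then (1 : ℝ≥0∞) else 0) * FO s t A b h * GA A m (fun _ => 0) h * TI A τ h ≤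
      ((∏ e ∈ outE s t A, ENNReal.ofReal (wI (b e) 0)) *
        ∏ v : {v // v ∉ A}, ENNReal.ofReal (Real.exp (τ v ^ 2 / m v))) *
        ENNReal.ofReal (H870.gr (fun v : {v // v ∉ A} => m v / 2) h (fun _ => 0)) := by
    intro h
    have e1 : FO s t A b h ≤ ∏ e ∈ outE s t A, ENNReal.ofReal (wI (b e) 0) :=
      Finset.prod_le_prod' fun e _ => Ib_le (hb e) _
    have e2 : GA A m (fun _ => 0) h * TI A τ h ≤
        (∏ v : {v // v ∉ A}, ENNReal.ofReal (Real.exp (τ v ^ 2 / m v))) *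
        ENNReal.ofReal (H870.gr (fun v : {v // v ∉ A} => m v / 2) h (fun _ => 0)) := by
      have e3 : H870.gr (fun v : {v // v ∉ A} => m v / 2) h (fun _ => 0) =
          ∏ v : {v // v ∉ A}, Real.exp (-(m v / 2 / 2) * (h v : ℝ) ^ 2) := by
        unfold H870.gr
        rw [← Real.exp_sum, ← Finset.sum_neg_distrib]
        congr 1
        refine Finset.sum_congr rfl fun v _ => ?_
        ring
      rw [e3, ENNReal.ofReal_prod_of_nonneg fun _ _ => (Real.exp_pos _).le,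
        ← Finset.prod_mul_distrib]
      unfold GA TI
      rw [Real.exp_sum, ENNReal.ofReal_prod_of_nonneg fun _ _ => (Real.exp_pos _).le,
        ← Finset.prod_mul_distrib]
      refine Finset.prod_le_prod' fun v _ => ?_
      rw [← ENNReal.ofReal_mul (Real.exp_pos _).le, ← ENNReal.ofReal_mul (Real.exp_pos _).le,
        ← Real.exp_add, sub_zero]
      exact ENNReal.ofReal_le_ofReal (tilt_le _ _ (hm v) _)
    rw [mul_assoc, mul_assoc]
    calc _ ≤ 1 * (FO s t A b h * (GA A m (fun _ => 0) h * TI A τ h)) := by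
          refine mul_le_mul' ?_ le_rfl
          split_ifs <;> simp
      _ = FO s t A b h * (GA A m (fun _ => 0) h * TI A τ h) := one_mul _
      _ ≤ _ := by
          rw [mul_assoc]
          exact mul_le_mul' e1 e2
  have h2 : ∑' h : {v // v ∉ A} → ℤ, ((∏ e ∈ outE s t A, ENNReal.ofReal (wI (b e) 0)) *
        ∏ v : {v // v ∉ A}, ENNReal.ofReal (Real.exp (τ v ^ 2 / m v))) *
        ENNReal.ofReal (H870.gr (fun v : {v // v ∉ A} => m v / 2) h (fun _ => 0)) ≠ ⊤ := by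
    rw [ENNReal.tsum_mul_left]
    refine ENNReal.mul_ne_top (ENNReal.mul_ne_top (ENNReal.prod_ne_top fun _ _ =>
      ENNReal.ofReal_ne_top) (ENNReal.prod_ne_top fun _ _ => ENNReal.ofReal_ne_top)) ?_
    rw [← ENNReal.ofReal_tsum_of_nonneg (fun h => (H870.gr_pos _ h _).le)
      (H870.summable_gr (fun v => by have := hm v; positivity) _)]
    exact ENNReal.ofReal_ne_top
  refine ne_top_of_le_ne_top h2 ?_
  unfold Zp
  exact ENNReal.tsum_le_tsum h1

lemma Zp_ne_zero (hb : ∀ e, 0 ≤ b e) (m τ : V → ℝ) : Zp s t A b m τ ≠ 0 := by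
  intro h
  unfold Zp at h
  rw [ENNReal.tsum_eq_zero] at h
  have h1 := h 0
  have e1 : ∀ v, gl A (fun _ => 0) (0 : {v // v ∉ A} → ℤ) v = 0 := by
    intro v
    unfold gl
    split_ifs <;> rfl
  have e2 : FO s t A b (0 : {v // v ∉ A} → ℤ) ≠ 0 := by
    unfold FO
    rw [Finset.prod_ne_zero_iff]
    intro e _
    rw [e1, e1, sub_zero]
    exact (Ib_zero_pos (hb e)).ne'
  have e3 : GA A m (fun _ => 0) (0 : {v // v ∉ A} → ℤ) ≠ 0 := by
    unfold GA
    rw [Finset.prod_ne_zero_iff]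
    intro v _
    exact (ENNReal.ofReal_pos.2 (Real.exp_pos _)).ne'
  have e4 : TI A τ (0 : {v // v ∉ A} → ℤ) ≠ 0 := (ENNReal.ofReal_pos.2 (Real.exp_pos _)).ne'
  rw [if_pos fun e _ => e1 _, one_mul] at h1
  exact mul_ne_zero (mul_ne_zero e2 e3) e4 h1

/-- the logarithm of `E^0 e^{<τ,h>}`, zero boundary values on `A` and its outer boundary -/
noncomputable def Lp (b : E → ℝ) (m τ : V → ℝ) : ℝ :=
  Real.log (Zp s t A b m τ).toReal - Real.log (Zp s t A b m (fun _ => 0)).toReal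

lemma exp_Lp (hb : ∀ e, 0 ≤ b e) (m τ : V → ℝ) (hm : ∀ v, 0 < m v) :
    ENNReal.ofReal (Real.exp (Lp s t A b m τ)) * Zp s t A b m (fun _ => 0) = Zp s t A b m τ := by
  have h1 := ENNReal.toReal_pos (Zp_ne_zero s t A hb m τ) (Zp_ne_top s t A hb m τ hm)
  have h0 := ENNReal.toReal_pos (Zp_ne_zero s t A hb m (fun _ => 0))
    (Zp_ne_top s t A hb m (fun _ => 0) hm)
  unfold Lp
  rw [Real.exp_sub, Real.exp_log h1, Real.exp_log h0]
  conv_lhs => rw [← ENNReal.ofReal_toReal (Zp_ne_top s t A hb m (fun _ => 0) hm)]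
  rw [ENNReal.toReal_ofReal h0.le, ← ENNReal.ofReal_mul (by positivity),
    div_mul_cancel₀ _ h0.ne', ENNReal.ofReal_toReal (Zp_ne_top s t A hb m τ hm)]

/-- **(RB), two copies** -/
theorem RB_two (hb : ∀ e, 0 ≤ b e) (m f τ : V → ℝ) (hm : ∀ v, 0 < m v) (x : V → ℤ × ℤ)
    (hx : ∀ v ∈ A, (S2 s t hb m f).d (x v) ≠ 0) :
    ENNReal.ofReal (Real.exp (2 * Lp s t A b m τ)) * (S2 s t hb m f).restZ A x (fun _ => 1) ≤
      (S2 s t hb m f).restZ A x
        (fun z => ENNReal.ofReal (Real.exp ((S2 s t hb m f).pr τ Aᶜ z))) := by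
  have h := rb_two s t A hb m f τ hm x hx
  have h0 : Zp s t A b m (fun _ => 0) ^ 2 ≠ 0 := pow_ne_zero _ (Zp_ne_zero s t A hb m _)
  have h0' : Zp s t A b m (fun _ => 0) ^ 2 ≠ ⊤ := ENNReal.pow_ne_top (Zp_ne_top s t A hb m _ hm)
  refine (ENNReal.mul_le_mul_iff_right h0 h0').1 ?_
  refine le_trans (le_of_eq ?_) h
  rw [← exp_Lp s t A hb m τ hm, show 2 * Lp s t A b m τ = Lp s t A b m τ + Lp s t A b m τ by ring,
    Real.exp_add, ENNReal.ofReal_mul (Real.exp_pos _).le]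
  ring

/-- **(RB), one copy** -/
theorem RB_one (hb : ∀ e, 0 ≤ b e) (m τ : V → ℝ) (hm : ∀ v, 0 < m v) (x : V → ℤ)
    (hx : ∀ v ∈ A, (S1 s t hb m).d (x v) ≠ 0) :
    ENNReal.ofReal (Real.exp (Lp s t A b m τ)) * (S1 s t hb m).restZ A x (fun _ => 1) ≤
      (S1 s t hb m).restZ A x
        (fun z => ENNReal.ofReal (Real.exp ((S1 s t hb m).pr τ Aᶜ z))) := by
  have h := rb_one s t A hb m τ x hx
  have h0 : Zp s t A b m (fun _ => 0) ≠ 0 := Zp_ne_zero s t A hb m _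
  have h0' : Zp s t A b m (fun _ => 0) ≠ ⊤ := Zp_ne_top s t A hb m _ hm
  refine (ENNReal.mul_le_mul_iff_right h0 h0').1 ?_
  refine le_trans (le_of_eq ?_) h
  rw [← exp_Lp s t A hb m τ hm]
  ring

end rb

end Vale.Agent.P159.TM.H131
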