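import Vale.Agent.P159.TM.H131.Bridge
import Vale.Agent.P159.TM.H60.FK

/-!
E2: the rest of a cluster.  The law of the heights off a cluster `A` in the FK form is a mixture of
pinned models; the inequality for the pinned models gives the inequality for the rest.
-/

open MeasureTheory Filter Topology Finset
open scoped ENNReal Nat

set_option linter.unusedSectionVars false

namespace Vale.Agent.P159.TM.H131

open Vale.Agent.P159.H353 Vale.Agent.P159.T1.H897 Vale.Agent.P159.TM.H60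

section mix

variable {E X Ω : Type*} [Countable X] [MeasurableSpace Ω]

/-- the multilinear step, pins in a set of full measure -/
theorem mix_ae (s : Finset E) (μ : E → Measure Ω) (G : E → Ω → X → ℝ≥0∞)
    (hG : ∀ e x, Measurable fun ω => G e ω x) (P : Ω → Prop) (hP : ∀ e, ∀ᵐ ω ∂μ e, P ω)
    (A B : X → ℝ≥0∞) (R : ℝ≥0∞) (ω₀ : E → Ω) (h₀ : ∀ e, P (ω₀ e))
    (h : ∀ ω : E → Ω, (∀ e, P (ω e)) →
      R * ∑' x, A x * ∏ e ∈ s, G e (ω e) x ≤ ∑' x, B x * ∏ e ∈ s, G e (ω e) x) :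
    R * ∑' x, A x * ∏ e ∈ s, (∫⁻ ω, G e ω x ∂μ e) ≤
      ∑' x, B x * ∏ e ∈ s, ∫⁻ ω, G e ω x ∂μ e := by
  classical
  induction s using Finset.induction_on generalizing A B with
  | empty => simpa using h ω₀ h₀
  | insert e s he ih =>
    have key : ∀ F : X → ℝ≥0∞, ∑' x, F x * ∏ e ∈ insert e s, (∫⁻ ω, G e ω x ∂μ e) =
        ∫⁻ ω, ∑' x, (F x * G e ω x) * ∏ e ∈ s, (∫⁻ ω, G e ω x ∂μ e) ∂μ e := by
      intro F
      rw [lintegral_tsum]
      · refine tsum_congr fun x => ?_
        rw [Finset.prod_insert he, lintegral_mul_const _ ((hG e x).const_mul _),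
          lintegral_const_mul _ (hG e x), mul_assoc]
      · intro x
        exact (((hG e x).const_mul _).mul_const _).aemeasurable
    rw [key A, key B, ← lintegral_const_mul]
    · refine lintegral_mono_ae ((hP e).mono fun ω hω => ?_)
      refine ih (fun x => A x * G e ω x) (fun x => B x * G e ω x) fun ω' hω' => ?_
      have h1 := h (Function.update ω' e ω) (by
        intro e'
        by_cases he' : e' = e
        · subst he'; simpa using hω
        · rw [Function.update_of_ne he']; exact hω' e')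
      have h2 : ∀ (F : X → ℝ≥0∞) (x : X),
          F x * ∏ e' ∈ insert e s, G e' (Function.update ω' e ω e') x =
          F x * G e ω x * ∏ e' ∈ s, G e' (ω' e') x := by
        intro F x
        rw [Finset.prod_insert he, Function.update_self, mul_assoc]
        congr 2
        refine Finset.prod_congr rfl fun e' he' => ?_
        rw [Function.update_of_ne]
        rintro rfl
        exact he he'
      simp only [h2] at h1
      exact h1
    · exact Measurable.tsum fun x => ((hG e x).const_mul _).mul_const _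

end mix

lemma pinM_ae : ∀ᵐ ω ∂pinM, ω.2 ∈ Set.Icc (0 : ℝ) 1 := by
  have h : MeasurableSet {ω : Pin | ω.2 ∈ Set.Icc (0 : ℝ) 1} := measurable_snd measurableSet_Icc
  rw [ae_iff]
  have h2 : ∫⁻ ω : Pin, ({ω : Pin | ω.2 ∉ Set.Icc (0 : ℝ) 1}).indicator (fun _ => (1 : ℝ≥0∞)) ω
      ∂pinM = 0 := by
    have e : ∀ ω : Pin, ({ω : Pin | ω.2 ∉ Set.Icc (0 : ℝ) 1}).indicator
        (fun _ => (1 : ℝ≥0∞)) ω = (fun (_ : ℤ) (t : ℝ) => ({t : ℝ | t ∉ Set.Icc (0 : ℝ) 1}).indicator
        (fun _ => (1 : ℝ≥0∞)) t) ω.1 ω.2 := by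
      intro ω
      simp only [Set.indicator, Set.mem_ofPred_eq]
    simp only [e]
    rw [lintegral_pin (fun (_ : ℤ) (t : ℝ) => ({t : ℝ | t ∉ Set.Icc (0 : ℝ) 1}).indicator
        (fun _ => (1 : ℝ≥0∞)) t)]
    · rw [setLIntegral_congr_fun (g := fun _ => 0) measurableSet_Icc]
      · simp
      · intro t ht
        rw [ENNReal.tsum_eq_zero]
        intro ζ
        simp only [Set.indicator, Set.mem_ofPred_eq]
        rw [if_neg (not_not.2 ht)]
    · intro ζ
      exact measurable_const.indicator measurableSet_Icc.compl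
  have h3 : MeasurableSet {a : Pin | a.2 ∉ Set.Icc (0 : ℝ) 1} := h.compl
  rw [← lintegral_indicator_one h3]
  exact h2

section rest

variable {V E : Type} [Fintype V] [DecidableEq V] [Fintype E] [DecidableEq E]
variable (s t : E → V) (A : Finset V) (b : E → ℝ)

/-- glue a configuration off `A` with the values `x` on `A` -/
def gl {S : Type*} (x : V → S) (y : {v // v ∉ A} → S) (v : V) : S :=
  if h : v ∈ A then x v else y ⟨v, h⟩

/-- the end of the edge in `A` -/
def inn (e : E) : V := if s e ∈ A then s e else t e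

/-- the end of the edge off `A` -/
def out (e : E) : V := if s e ∈ A then t e else s e

lemma inn_mem {e : E} (he : e ∈ bdE s t A) : inn s t A e ∈ A := by
  rw [mem_bdE] at he
  unfold inn
  split_ifs with h
  · exact h
  · by_contra h2
    exact he ⟨fun h3 => absurd h3 h, fun h3 => absurd h3 h2⟩

lemma out_not_mem {e : E} (he : e ∈ bdE s t A) : out s t A e ∉ A := by
  rw [mem_bdE] at he
  unfold out
  split_ifs with h
  · intro h2
    exact he ⟨fun _ => h2, fun _ => h⟩
  · exact h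

/-- the pinned edges -/
noncomputable def FE (ζ : E → ℤ) (τ : E → ℝ) (h : {v // v ∉ A} → ℤ) : ℝ≥0∞ :=
  ∏ e ∈ bdE s t A, Ib (b e * (1 - τ e)) (gl A (fun _ => 0) h (out s t A e) - ζ e)

/-- the edges off `A` -/
noncomputable def FO (h : {v // v ∉ A} → ℤ) : ℝ≥0∞ :=
  ∏ e ∈ outE s t A, Ib (b e) (gl A (fun _ => 0) h (t e) - gl A (fun _ => 0) h (s e))

/-- the masses with background `f` -/
noncomputable def GA (m f : V → ℝ) (h : {v // v ∉ A} → ℤ) : ℝ≥0∞ :=
  ∏ v : {v // v ∉ A}, ENNReal.ofReal (Real.exp (-(m v / 2) * ((h v : ℝ) - f v) ^ 2))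

/-- the tilt -/
noncomputable def TI (g : V → ℝ) (h : {v // v ∉ A} → ℤ) : ℝ≥0∞ :=
  ENNReal.ofReal (Real.exp (∑ v : {v // v ∉ A}, g v * (h v : ℝ)))

/-- pinned partition function -/
noncomputable def ZF (m : V → ℝ) (ζ : E → ℤ) (τ : E → ℝ) (f g : V → ℝ) : ℝ≥0∞ :=
  ∑' h : {v // v ∉ A} → ℤ, FE s t A b ζ τ h * FO s t A b h * GA A m f h * TI A g h

open Classical in
/-- zero boundary values on `A` and on the outer ends of its boundary edges, zero background -/
noncomputable def Zp (m : V → ℝ) (g : V → ℝ) : ℝ≥0∞ :=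
  ∑' h : {v // v ∉ A} → ℤ, (if ∀ e ∈ bdE s t A, gl A (fun _ => 0) h (out s t A e) = 0 then 1
    else 0) * FO s t A b h * GA A m (fun _ => 0) h * TI A g h

/-! ### two copies -/

/-- closed weight of two copies -/
noncomputable def cl2 (e : E) (x y : ℤ × ℤ) : ℝ≥0∞ :=
  ENNReal.ofReal (min (wI (b e) (y.1 - x.1) * wI (b e) (y.2 - x.2))
    (wI (b e) (y.1 - x.2) * wI (b e) (y.2 - x.1)))

/-- full weight of two copies -/
noncomputable def fl2 (e : E) (x y : ℤ × ℤ) : ℝ≥0∞ :=
  ENNReal.ofReal (wI (b e) (y.1 - x.1) * wI (b e) (y.2 - x.2))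

/-- the weight of the rest, two copies -/
noncomputable def restw (m f : V → ℝ) (x : V → ℤ × ℤ) (y : {v // v ∉ A} → ℤ × ℤ) : ℝ≥0∞ :=
  (∏ e ∈ bdE s t A, cl2 b e (gl A x y (s e)) (gl A x y (t e))) *
    (∏ e ∈ outE s t A, fl2 b e (gl A x y (s e)) (gl A x y (t e))) *
    ∏ v : {v // v ∉ A}, ENNReal.ofReal (Real.exp (-(m v / 2) * (((y v).1 : ℝ) - f v) ^ 2) *
      Real.exp (-(m v / 2) * (((y v).2 : ℝ) - f v) ^ 2))

lemma gl_fst (x : V → ℤ × ℤ) (y : {v // v ∉ A} → ℤ × ℤ) (v : V) (hv : v ∉ A) :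
    (gl A x y v).1 = gl A (fun _ => 0) (fun w => (y w).1) v := by
  simp [gl, hv]

lemma gl_snd (x : V → ℤ × ℤ) (y : {v // v ∉ A} → ℤ × ℤ) (v : V) (hv : v ∉ A) :
    (gl A x y v).2 = gl A (fun _ => 0) (fun w => (y w).2) v := by
  simp [gl, hv]

variable {b}

lemma cl2_pin (hb : ∀ e, 0 ≤ b e) (e : E) (x y : ℤ × ℤ) (h : x.1 ≠ x.2) :
    cl2 b e x y = ∫⁻ ω : Pin, pinG (b e) x.1 x.2 y.1 y.2 ω.1 ω.2 ∂pinM := by
  rw [← closed2_wI (hb e) _ _ _ _ h]
  unfold cl2
  have h1 : ∀ n : ℤ, wI (b e) (-n) = wI (b e) n := fun n => wI_neg _ _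
  rw [← h1 (x.1 - y.1), ← h1 (x.2 - y.2), ← h1 (x.1 - y.2), ← h1 (x.2 - y.1)]
  rw [show -(x.1 - y.1) = y.1 - x.1 by ring, show -(x.2 - y.2) = y.2 - x.2 by ring,
    show -(x.1 - y.2) = y.2 - x.1 by ring, show -(x.2 - y.1) = y.1 - x.2 by ring,
    mul_comm (wI (b e) (y.2 - x.1))]

lemma cl2_comm (e : E) (x y : ℤ × ℤ) : cl2 b e x y = cl2 b e y x := by
  unfold cl2
  have h1 : ∀ n : ℤ, wI (b e) (-n) = wI (b e) n := fun n => wI_neg _ _
  rw [← h1 (y.1 - x.1), ← h1 (y.2 - x.2), ← h1 (y.1 - x.2), ← h1 (y.2 - x.1)]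
  rw [show -(y.1 - x.1) = x.1 - y.1 by ring, show -(y.2 - x.2) = x.2 - y.2 by ring,
    show -(y.1 - x.2) = x.2 - y.1 by ring, show -(y.2 - x.1) = x.1 - y.2 by ring,
    mul_comm (wI (b e) (x.2 - y.1))]

lemma fl2_eq (hb : ∀ e, 0 ≤ b e) (e : E) (x y : ℤ × ℤ) :
    fl2 b e x y = Ib (b e) (y.1 - x.1) * Ib (b e) (y.2 - x.2) := by
  rw [Ib_eq (hb e), Ib_eq (hb e), ← ENNReal.ofReal_mul (wI_nonneg (hb e) _)]
  rfl

/-- sums over two copies -/
lemma tsum_two {ι : Type*} (F G : (ι → ℤ) → ℝ≥0∞) :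
    ∑' y : ι → ℤ × ℤ, F (fun v => (y v).1) * G (fun v => (y v).2) =
      (∑' h, F h) * ∑' h, G h := by
  rw [← (Equiv.arrowProdEquivProdArrow ι (fun _ => ℤ) (fun _ => ℤ)).symm.tsum_eq,
    ENNReal.tsum_prod' (f := fun p => _), ← ENNReal.tsum_mul_right]
  refine tsum_congr fun h => ?_
  rw [← ENNReal.tsum_mul_left]
  rfl

/-- **E2, two copies**: the rest of a cluster against zero boundary values -/
theorem rest_two (hb : ∀ e, 0 ≤ b e) (m f g : V → ℝ) (x : V → ℤ × ℤ)
    (hx : ∀ e ∈ bdE s t A, (x (inn s t A e)).1 ≠ (x (inn s t A e)).2)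
    (hpin : ∀ (ζ : E → ℤ) (τ : E → ℝ), (∀ e, τ e ∈ Set.Icc (0 : ℝ) 1) →
      Zp s t A b m g ^ 2 * ZF s t A b m ζ τ f (fun _ => 0) ^ 2 ≤
        Zp s t A b m (fun _ => 0) ^ 2 *
          (ZF s t A b m ζ τ f g * ZF s t A b m ζ τ f (fun v => - g v))) :
    Zp s t A b m g ^ 2 * ∑' y, restw s t A b m f x y ≤
      Zp s t A b m (fun _ => 0) ^ 2 * ∑' y, restw s t A b m f x y *
        ENNReal.ofReal (Real.exp (∑ v : {v // v ∉ A}, g v * (((y v).1 : ℝ) - (y v).2))) := by
  set A0 : ({v // v ∉ A} → ℤ × ℤ) → ℝ≥0∞ := fun y =>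
    (∏ e ∈ outE s t A, fl2 b e (gl A x y (s e)) (gl A x y (t e))) *
    ∏ v : {v // v ∉ A}, ENNReal.ofReal (Real.exp (-(m v / 2) * (((y v).1 : ℝ) - f v) ^ 2) *
      Real.exp (-(m v / 2) * (((y v).2 : ℝ) - f v) ^ 2)) with hA0
  set T : ({v // v ∉ A} → ℤ × ℤ) → ℝ≥0∞ := fun y =>
    ENNReal.ofReal (Real.exp (∑ v : {v // v ∉ A}, g v * (((y v).1 : ℝ) - (y v).2))) with hT
  set G : E → Pin → ({v // v ∉ A} → ℤ × ℤ) → ℝ≥0∞ := fun e ω y =>
    pinG (b e) (x (inn s t A e)).1 (x (inn s t A e)).2 (gl A x y (out s t A e)).1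
      (gl A x y (out s t A e)).2 ω.1 ω.2 with hG
  have hr : ∀ y, restw s t A b m f x y = A0 y * ∏ e ∈ bdE s t A, ∫⁻ ω, G e ω y ∂pinM := by
    intro y
    unfold restw
    rw [hA0, mul_comm (∏ e ∈ bdE s t A, _), mul_assoc, mul_comm (∏ e ∈ bdE s t A, _),
      ← mul_assoc]
    congr 1
    refine Finset.prod_congr rfl fun e he => ?_
    rw [hG]
    simp only
    rw [← cl2_pin hb e _ _ (hx e he)]
    have h1 := inn_mem s t A he
    have h2 := out_not_mem s t A he
    have h3 : gl A x y (inn s t A e) = x (inn s t A e) := by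
      unfold gl
      rw [dif_pos h1]
    rw [← h3]
    unfold inn out
    split_ifs
    · rfl
    · exact cl2_comm e _ _
  have hGm : ∀ e y, Measurable fun ω => G e ω y := fun e y => meas_pin2 _ _ _ _ _
  have key := mix_ae (bdE s t A) (fun _ => pinM) G hGm (fun ω => ω.2 ∈ Set.Icc (0 : ℝ) 1)
    (fun _ => pinM_ae) A0 (fun y => Zp s t A b m (fun _ => 0) ^ 2 * (A0 y * T y))
    (Zp s t A b m g ^ 2) (fun _ => (0, 0)) (fun _ => by simp) ?_
  · calc Zp s t A b m g ^ 2 * ∑' y, restw s t A b m f x y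
        = Zp s t A b m g ^ 2 * ∑' y, A0 y * ∏ e ∈ bdE s t A, ∫⁻ ω, G e ω y ∂pinM := by
          simp only [hr]
      _ ≤ _ := key
      _ = _ := by
          rw [← ENNReal.tsum_mul_left]
          refine tsum_congr fun y => ?_
          rw [hr]
          ring
  · intro ω hω
    set K : ℝ≥0∞ := ∏ e ∈ bdE s t A, ker2 (b e) (ω e).2
      ((x (inn s t A e)).1 + (x (inn s t A e)).2) ((x (inn s t A e)).1 - (x (inn s t A e)).2)
      (ω e).1 with hK
    set ζ : E → ℤ := fun e => (ω e).1 with hζ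
    set τ : E → ℝ := fun e => (ω e).2 with hτ
    have hfac : ∀ y, A0 y * ∏ e ∈ bdE s t A, G e (ω e) y =
        K * ((FE s t A b ζ τ (fun v => (y v).1) * FO s t A b (fun v => (y v).1) *
          GA A m f (fun v => (y v).1)) *
          (FE s t A b ζ τ (fun v => (y v).2) * FO s t A b (fun v => (y v).2) *
          GA A m f (fun v => (y v).2))) := by
      intro y
      have e1 : ∏ e ∈ bdE s t A, G e (ω e) y = K * (FE s t A b ζ τ (fun v => (y v).1) *
          FE s t A b ζ τ (fun v => (y v).2)) := by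
        rw [hK, FE, FE, ← Finset.prod_mul_distrib, ← Finset.prod_mul_distrib]
        refine Finset.prod_congr rfl fun e he => ?_
        have h2 := out_not_mem s t A he
        rw [hG]
        simp only
        unfold pinG
        rw [gl_fst A x y _ h2, gl_snd A x y _ h2]
      have e2 : ∏ e ∈ outE s t A, fl2 b e (gl A x y (s e)) (gl A x y (t e)) =
          FO s t A b (fun v => (y v).1) * FO s t A b (fun v => (y v).2) := by
        rw [FO, FO, ← Finset.prod_mul_distrib]
        refine Finset.prod_congr rfl fun e he => ?_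
        rw [mem_outE] at he
        rw [fl2_eq hb, gl_fst A x y _ he.1, gl_snd A x y _ he.1, gl_fst A x y _ he.2,
          gl_snd A x y _ he.2]
      have e3 : ∏ v : {v // v ∉ A}, ENNReal.ofReal (Real.exp (-(m v / 2) *
          (((y v).1 : ℝ) - f v) ^ 2) * Real.exp (-(m v / 2) * (((y v).2 : ℝ) - f v) ^ 2)) =
          GA A m f (fun v => (y v).1) * GA A m f (fun v => (y v).2) := by
        rw [GA, GA, ← Finset.prod_mul_distrib]
        refine Finset.prod_congr rfl fun v _ => ?_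
        rw [ENNReal.ofReal_mul (Real.exp_pos _).le]
      rw [hA0]
      simp only
      rw [e1, e2, e3]
      ring
    have hTy : ∀ y, T y = TI A g (fun v => (y v).1) * TI A (fun v => - g v) (fun v => (y v).2) := by
      intro y
      rw [hT]
      simp only
      unfold TI
      rw [← ENNReal.ofReal_mul (Real.exp_pos _).le, ← Real.exp_add, ← Finset.sum_add_distrib]
      have e5 : ∀ v : {v // v ∉ A}, g v * (((y v).1 : ℝ) - (y v).2) =
          g v * ((y v).1 : ℝ) + -g v * ((y v).2 : ℝ) := fun v => by ring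
      simp only [e5]
    have hT0 : ∀ h : {v // v ∉ A} → ℤ, TI A (fun _ => 0) h = 1 := by
      intro h
      simp [TI]
    have L : ∑' y, A0 y * ∏ e ∈ bdE s t A, G e (ω e) y = K * ZF s t A b m ζ τ f (fun _ => 0) ^ 2 := by
      simp only [hfac]
      rw [ENNReal.tsum_mul_left, tsum_two (fun h => FE s t A b ζ τ h * FO s t A b h * GA A m f h)
        (fun h => FE s t A b ζ τ h * FO s t A b h * GA A m f h), sq]
      unfold ZF
      simp only [hT0, mul_one]
    have R : ∑' y, Zp s t A b m (fun _ => 0) ^ 2 * (A0 y * T y) * ∏ e ∈ bdE s t A, G e (ω e) y =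
        Zp s t A b m (fun _ => 0) ^ 2 * (K *
          (ZF s t A b m ζ τ f g * ZF s t A b m ζ τ f (fun v => - g v))) := by
      have e4 : ∀ y, Zp s t A b m (fun _ => 0) ^ 2 * (A0 y * T y) *
          ∏ e ∈ bdE s t A, G e (ω e) y = Zp s t A b m (fun _ => 0) ^ 2 * (K *
          ((FE s t A b ζ τ (fun v => (y v).1) * FO s t A b (fun v => (y v).1) *
          GA A m f (fun v => (y v).1) * TI A g (fun v => (y v).1)) *
          (FE s t A b ζ τ (fun v => (y v).2) * FO s t A b (fun v => (y v).2) *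
          GA A m f (fun v => (y v).2) * TI A (fun v => - g v) (fun v => (y v).2)))) := by
        intro y
        rw [show Zp s t A b m (fun _ => 0) ^ 2 * (A0 y * T y) * ∏ e ∈ bdE s t A, G e (ω e) y =
          Zp s t A b m (fun _ => 0) ^ 2 * ((A0 y * ∏ e ∈ bdE s t A, G e (ω e) y) * T y) by ring,
          hfac, hTy]
        ring
      simp only [e4]
      rw [ENNReal.tsum_mul_left, ENNReal.tsum_mul_left,
        tsum_two (fun h => FE s t A b ζ τ h * FO s t A b h * GA A m f h * TI A g h)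
        (fun h => FE s t A b ζ τ h * FO s t A b h * GA A m f h * TI A (fun v => - g v) h)]
      rfl
    rw [L, R]
    calc Zp s t A b m g ^ 2 * (K * ZF s t A b m ζ τ f (fun _ => 0) ^ 2)
        = K * (Zp s t A b m g ^ 2 * ZF s t A b m ζ τ f (fun _ => 0) ^ 2) := by ring
      _ ≤ K * (Zp s t A b m (fun _ => 0) ^ 2 *
          (ZF s t A b m ζ τ f g * ZF s t A b m ζ τ f (fun v => - g v))) := by
          exact mul_le_mul' le_rfl (hpin ζ τ fun e => hω e)
      _ = _ := by ring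

/-! ### one copy, zero background -/

variable (b) in
/-- closed weight of one copy -/
noncomputable def cl1 (e : E) (x y : ℤ) : ℝ≥0∞ :=
  ENNReal.ofReal (min (wI (b e) (y - x)) (wI (b e) (y + x)))

variable (b) in
/-- full weight of one copy -/
noncomputable def fl1 (e : E) (x y : ℤ) : ℝ≥0∞ := ENNReal.ofReal (wI (b e) (y - x))

variable (b) in
/-- the weight of the rest, one copy -/
noncomputable def restw1 (m : V → ℝ) (x : V → ℤ) (y : {v // v ∉ A} → ℤ) : ℝ≥0∞ :=
  (∏ e ∈ bdE s t A, cl1 b e (gl A x y (s e)) (gl A x y (t e))) *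
    (∏ e ∈ outE s t A, fl1 b e (gl A x y (s e)) (gl A x y (t e))) *
    ∏ v : {v // v ∉ A}, ENNReal.ofReal (Real.exp (-(m v / 2) * ((y v : ℝ)) ^ 2))

lemma cl1_pin (hb : ∀ e, 0 ≤ b e) (e : E) (x y : ℤ) (h : x ≠ 0) :
    cl1 b e x y = ∫⁻ τ in Set.Icc (0 : ℝ) 1, ker1 (b e) τ x * Ib (b e * (1 - τ)) y :=
  closed1_wI (hb e) x y h

lemma cl1_comm (e : E) (x y : ℤ) : cl1 b e x y = cl1 b e y x := by
  unfold cl1
  rw [← wI_neg (b e) (y - x), show -(y - x) = x - y by ring, add_comm y x]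

lemma fl1_eq (hb : ∀ e, 0 ≤ b e) (e : E) (x y : ℤ) : fl1 b e x y = Ib (b e) (y - x) := by
  rw [Ib_eq (hb e)]
  rfl

lemma gl_zero (x : V → ℤ) (y : {v // v ∉ A} → ℤ) (v : V) (hv : v ∉ A) :
    gl A x y v = gl A (fun _ => 0) y v := by
  simp [gl, hv]

/-- **E2, one copy**: the rest of a cluster against zero boundary values -/
theorem rest_one (hb : ∀ e, 0 ≤ b e) (m g : V → ℝ) (x : V → ℤ)
    (hx : ∀ e ∈ bdE s t A, x (inn s t A e) ≠ 0)
    (hpin : ∀ (τ : E → ℝ), (∀ e, τ e ∈ Set.Icc (0 : ℝ) 1) →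
      Zp s t A b m g * ZF s t A b m (fun _ => 0) τ (fun _ => 0) (fun _ => 0) ≤
        Zp s t A b m (fun _ => 0) * ZF s t A b m (fun _ => 0) τ (fun _ => 0) g) :
    Zp s t A b m g * ∑' y, restw1 s t A b m x y ≤
      Zp s t A b m (fun _ => 0) * ∑' y, restw1 s t A b m x y *
        ENNReal.ofReal (Real.exp (∑ v : {v // v ∉ A}, g v * (y v : ℝ))) := by
  set A0 : ({v // v ∉ A} → ℤ) → ℝ≥0∞ := fun y =>
    (∏ e ∈ outE s t A, fl1 b e (gl A x y (s e)) (gl A x y (t e))) *
    ∏ v : {v // v ∉ A}, ENNReal.ofReal (Real.exp (-(m v / 2) * ((y v : ℝ)) ^ 2)) with hA0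
  set G : E → ℝ → ({v // v ∉ A} → ℤ) → ℝ≥0∞ := fun e τ y =>
    ker1 (b e) τ (x (inn s t A e)) * Ib (b e * (1 - τ)) (gl A x y (out s t A e)) with hG
  have hr : ∀ y, restw1 s t A b m x y =
      A0 y * ∏ e ∈ bdE s t A, ∫⁻ τ in Set.Icc (0 : ℝ) 1, G e τ y := by
    intro y
    unfold restw1
    rw [hA0, mul_comm (∏ e ∈ bdE s t A, _), mul_assoc, mul_comm (∏ e ∈ bdE s t A, _),
      ← mul_assoc]
    congr 1
    refine Finset.prod_congr rfl fun e he => ?_
    rw [hG]
    simp only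
    rw [← cl1_pin hb e _ _ (hx e he)]
    have h1 := inn_mem s t A he
    have h3 : gl A x y (inn s t A e) = x (inn s t A e) := by
      unfold gl
      rw [dif_pos h1]
    rw [← h3]
    unfold inn out
    split_ifs
    · rfl
    · exact cl1_comm e _ _
  have hGm : ∀ e y, Measurable fun τ => G e τ y := fun e y => meas_pin1 _ _ _
  have key := mix_ae (bdE s t A) (fun _ => volume.restrict (Set.Icc (0 : ℝ) 1)) G hGm
    (fun τ => τ ∈ Set.Icc (0 : ℝ) 1)
    (fun _ => ae_restrict_mem measurableSet_Icc) A0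
    (fun y => Zp s t A b m (fun _ => 0) * (A0 y * TI A g y))
    (Zp s t A b m g) (fun _ => 0) (fun _ => by simp) ?_
  · calc Zp s t A b m g * ∑' y, restw1 s t A b m x y
        = Zp s t A b m g * ∑' y, A0 y * ∏ e ∈ bdE s t A, ∫⁻ τ in Set.Icc (0 : ℝ) 1, G e τ y := by
          simp only [hr]
      _ ≤ _ := key
      _ = _ := by
          rw [← ENNReal.tsum_mul_left]
          refine tsum_congr fun y => ?_
          rw [hr]
          unfold TI
          ring
  · intro τ hτ
    set K : ℝ≥0∞ := ∏ e ∈ bdE s t A, ker1 (b e) (τ e) (x (inn s t A e)) with hK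
    have hfac : ∀ y, A0 y * ∏ e ∈ bdE s t A, G e (τ e) y =
        K * (FE s t A b (fun _ => 0) τ y * FO s t A b y * GA A m (fun _ => 0) y) := by
      intro y
      have e1 : ∏ e ∈ bdE s t A, G e (τ e) y = K * FE s t A b (fun _ => 0) τ y := by
        rw [hK, FE, ← Finset.prod_mul_distrib]
        refine Finset.prod_congr rfl fun e he => ?_
        have h2 := out_not_mem s t A he
        rw [hG]
        simp only
        rw [gl_zero A x y _ h2, sub_zero]
      have e2 : ∏ e ∈ outE s t A, fl1 b e (gl A x y (s e)) (gl A x y (t e)) = FO s t A b y := by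
        rw [FO]
        refine Finset.prod_congr rfl fun e he => ?_
        rw [mem_outE] at he
        rw [fl1_eq hb, gl_zero A x y _ he.1, gl_zero A x y _ he.2]
      have e3 : ∏ v : {v // v ∉ A}, ENNReal.ofReal (Real.exp (-(m v / 2) *
          ((y v : ℝ)) ^ 2)) = GA A m (fun _ => 0) y := by
        rw [GA]
        refine Finset.prod_congr rfl fun v _ => ?_
        rw [sub_zero]
      rw [hA0]
      simp only
      rw [e1, e2, e3]
      ring
    have hT0 : ∀ h : {v // v ∉ A} → ℤ, TI A (fun _ => 0) h = 1 := by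
      intro h
      simp [TI]
    have L : ∑' y, A0 y * ∏ e ∈ bdE s t A, G e (τ e) y =
        K * ZF s t A b m (fun _ => 0) τ (fun _ => 0) (fun _ => 0) := by
      simp only [hfac]
      rw [ENNReal.tsum_mul_left]
      unfold ZF
      simp only [hT0, mul_one]
    have R : ∑' y, Zp s t A b m (fun _ => 0) * (A0 y * TI A g y) *
        ∏ e ∈ bdE s t A, G e (τ e) y =
        Zp s t A b m (fun _ => 0) * (K * ZF s t A b m (fun _ => 0) τ (fun _ => 0) g) := by
      have e4 : ∀ y, Zp s t A b m (fun _ => 0) * (A0 y * TI A g y) *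
          ∏ e ∈ bdE s t A, G e (τ e) y = Zp s t A b m (fun _ => 0) * (K *
          (FE s t A b (fun _ => 0) τ y * FO s t A b y * GA A m (fun _ => 0) y * TI A g y)) := by
        intro y
        rw [show Zp s t A b m (fun _ => 0) * (A0 y * TI A g y) * ∏ e ∈ bdE s t A, G e (τ e) y =
          Zp s t A b m (fun _ => 0) * ((A0 y * ∏ e ∈ bdE s t A, G e (τ e) y) * TI A g y) by ring,
          hfac]
        ring
      simp only [e4]
      rw [ENNReal.tsum_mul_left, ENNReal.tsum_mul_left]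
      rfl
    rw [L, R]
    calc Zp s t A b m g * (K * ZF s t A b m (fun _ => 0) τ (fun _ => 0) (fun _ => 0))
        = K * (Zp s t A b m g * ZF s t A b m (fun _ => 0) τ (fun _ => 0) (fun _ => 0)) := by ring
      _ ≤ K * (Zp s t A b m (fun _ => 0) * ZF s t A b m (fun _ => 0) τ (fun _ => 0) g) :=
          mul_le_mul' le_rfl (hpin τ hτ)
      _ = _ := by ring

end rest

end Vale.Agent.P159.TM.H131
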